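import Vale.Agent.P253Y.G.Defs
import Vale.Agent.P297Y.Alg.Cs
import Vale.Agent.P297Y.Alg.Kill

/-! P253, surfaces, block G: shared lemmas. -/

set_option linter.all false

namespace Vale.Agent.P297Z.Sf.Mp

variable {K : Type} [Field K] [Algebra ℂ K] {S S' : Surf K}

/-! ### Bilinearity -/

theorem i_add (A B X : Div S.W) : inter (A + B) X = inter A X + inter B X := S.all.add A B X
theorem i_add' (X A B : Div S.W) : inter X (A + B) = inter X A + inter X B := map_add (S.B X) A B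
theorem i_sub (A B X : Div S.W) : inter (A - B) X = inter A X - inter B X := by
  rw [← S.B_apply, map_sub]; rfl
theorem i_sub' (X A B : Div S.W) : inter X (A - B) = inter X A - inter X B := map_sub (S.B X) A B
theorem i_neg (A X : Div S.W) : inter (-A) X = -inter A X := by rw [← S.B_apply, map_neg]; rfl
theorem i_neg' (X A : Div S.W) : inter X (-A) = -inter X A := map_neg (S.B X) A
theorem i_smul (n : ℤ) (A X : Div S.W) : inter (n • A) X = n * inter A X := by
  rw [← S.B_apply, map_zsmul]; rfl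
theorem i_smul' (n : ℤ) (X A : Div S.W) : inter X (n • A) = n * inter X A := map_zsmul (S.B X) n A
theorem i_nsmul (n : ℕ) (A X : Div S.W) : inter (n • A) X = n * inter A X := by
  rw [← natCast_zsmul, i_smul]
theorem i_nsmul' (n : ℕ) (X A : Div S.W) : inter X (n • A) = n * inter X A := by
  rw [← natCast_zsmul, i_smul']
theorem i_zero (X : Div S.W) : inter 0 X = 0 := by rw [← S.B_apply, map_zero]; rfl
theorem i_zero' (X : Div S.W) : inter X 0 = 0 := map_zero (S.B X)
theorem i_sum {ι : Type} (s : Finset ι) (A : ι → Div S.W) (X : Div S.W) :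
    inter (∑ i ∈ s, A i) X = ∑ i ∈ s, inter (A i) X := by
  rw [← S.B_apply, map_sum, AddMonoidHom.finset_sum_apply]; rfl
theorem i_sum' {ι : Type} (s : Finset ι) (X : Div S.W) (A : ι → Div S.W) :
    inter X (∑ i ∈ s, A i) = ∑ i ∈ s, inter X (A i) := map_sum (S.B X) A s
theorem i_div {g : K} (hg : g ≠ 0) (X : Div S.W) : inter (div S.W g) X = 0 := by
  rw [← zero_add (div S.W g), inter_lin S.all.toRR _ _ hg, i_zero]
theorem i_div' {g : K} (hg : g ≠ 0) (X : Div S.W) : inter X (div S.W g) = 0 := by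
  rw [inter_comm, i_div hg]

theorem cl_self {W : Submodule ℂ K} (C : Crv W) : C.cl C = 1 := Finsupp.single_eq_same
theorem cl_ne {W : Submodule ℂ K} {C C' : Crv W} (h : C' ≠ C) : C.cl C' = 0 :=
  Finsupp.single_eq_of_ne h
theorem cl_nonneg {W : Submodule ℂ K} (C : Crv W) : 0 ≤ C.cl := Finsupp.single_nonneg.2 zero_le_one
theorem cl_ne_zero {W : Submodule ℂ K} (C : Crv W) : C.cl ≠ 0 :=
  Finsupp.single_ne_zero.2 one_ne_zero

/-- An effective divisor meets a curve outside its support nonnegatively. -/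
theorem i_eff {Z : Div S.W} (hZ : 0 ≤ Z) {C : Crv S.W} (h : Z C = 0) : 0 ≤ inter Z C.cl := by
  rw [inter_comm]
  exact inter_nonneg S.all.inte (cl_nonneg C) hZ (Rul.single_or h)

theorem i_cl {C C' : Crv S.W} (h : C ≠ C') : 0 ≤ inter C.cl C'.cl :=
  i_eff (cl_nonneg C) (cl_ne h.symm)

/-- Two curves meet iff the intersection number is positive. -/
theorem i_pos_iff {C C' : Crv S.W} (h : C ≠ C') :
    0 < inter C.cl C'.cl ↔ ∃ x : Pt S.W, x.On C ∧ x.On C' := by
  have hA := S.all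
  have h3 : ∀ X, C.cl X = 0 ∨ C'.cl X = 0 := Rul.single_or (cl_ne h)
  refine ⟨fun h0 => by_contra fun o => h0.ne' ?_, fun ⟨x, h1, h2⟩ => inter_pos hA.toLoc1 hA.multPos
    hA.inte (cl_nonneg C) (cl_nonneg C') h3 ⟨C, h1, by simp⟩ ⟨C', h2, by simp⟩⟩
  rw [inter_eq hA.inte (cl_nonneg C) (cl_nonneg C') h3]
  refine finsum_eq_zero_of_forall_eq_zero fun x => Int.natCast_eq_zero.2 (by_contra fun e => o ?_)
  obtain ⟨⟨X, a1, a2⟩, Y, a3, a4⟩ := (hA.multPos x _ _ (cl_nonneg C) (cl_nonneg C') h3).2.1 e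
  obtain rfl : X = C := by_contra fun e => a2 (cl_ne e)
  obtain rfl : Y = C' := by_contra fun e => a4 (cl_ne e)
  exact ⟨x, a1, a3⟩

theorem On.eq_sum {W : Submodule ℂ K} {A : Div W} {D : Finset (Crv W)} (h : On A D) :
    A = ∑ C ∈ D, A C • C.cl := by
  classical
  ext X
  rw [Finsupp.finset_sum_apply]
  by_cases o : X ∈ D
  · rw [Finset.sum_eq_single X (fun C _ e => by simp [Finsupp.single_eq_of_ne e.symm]) fun e => absurd o e]
    simp
  · rw [h X o]
    exact (Finset.sum_eq_zero fun C hC => by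
      simp [Finsupp.single_eq_of_ne (show X ≠ C from fun e => o (e ▸ hC))]).symm

theorem on_support {W : Submodule ℂ K} (A : Div W) : On A A.support :=
  fun _ h => Finsupp.notMem_support_iff.1 h

theorem i_on {A : Div S.W} {D : Finset (Crv S.W)} (h : On A D) (X : Div S.W) :
    inter A X = ∑ C ∈ D, A C * inter C.cl X := by
  conv_lhs => rw [h.eq_sum, i_sum]
  simp only [i_smul]

theorem i_on' {A : Div S.W} {D : Finset (Crv S.W)} (h : On A D) (X : Div S.W) :
    inter X A = ∑ C ∈ D, A C * inter X C.cl := by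
  rw [inter_comm, i_on h]
  simp only [inter_comm X]

theorem nef_of {Z : Div S.W} (hZ : 0 ≤ Z) (h : ∀ C, Z C ≠ 0 → 0 ≤ inter Z C.cl) : S.Nef Z :=
  fun C => (em (Z C = 0)).elim (i_eff hZ) (h C)

theorem Nz.nef {A : Div S.W} (h : Nz A) : S.Nef A := fun C => (h _).ge

/-! ### Reduced divisors -/

section
variable {W : Submodule ℂ K} {D : Finset (Crv W)} {C : Crv W}

theorem rd_mem (h : C ∈ D) : rd D C = 1 := by
  rw [rd, Finsupp.finset_sum_apply,
    Finset.sum_eq_single C (fun X _ e => cl_ne e.symm) fun e => absurd h e, cl_self]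

theorem rd_on (D : Finset (Crv W)) : On (rd D) D := fun C h => by
  rw [rd, Finsupp.finset_sum_apply]
  exact Finset.sum_eq_zero fun X hX => cl_ne fun e => h (e ▸ hX)

theorem rd_nonneg (D : Finset (Crv W)) : 0 ≤ rd D := Finset.sum_nonneg fun C _ => cl_nonneg C

theorem rd_mono {D' : Finset (Crv W)} (h : D ⊆ D') : rd D ≤ rd D' :=
  Finset.sum_le_sum_of_subset_of_nonneg h fun C _ _ => cl_nonneg C

theorem rd_insert [DecidableEq (Crv W)] (h : C ∉ D) : rd (insert C D) = rd D + C.cl := by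
  rw [rd, Finset.sum_insert h, add_comm]; rfl

theorem rd_ne_zero (h : D.Nonempty) : rd D ≠ 0 := fun e => by
  obtain ⟨C, hC⟩ := h
  simpa [e] using rd_mem hC

theorem H0_mono {A B : Div W} (h : A ≤ B) : H0 A ≤ H0 B := secOn_mono fun C _ => ⟨trivial, h C⟩

theorem H0_nsmul {A : Div W} {f : K} (h : f ∈ H0 A) (n : ℕ) : f ^ n ∈ H0 (n • A) := by
  induction n with
  | zero => exact Or.inr fun C _ => by simp
  | succ n ih => rw [pow_succ, succ_nsmul]; exact mul_mem_secOn ih h

end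

theorem i_rd (D : Finset (Crv S.W)) (X : Div S.W) : inter (rd D) X = ∑ C ∈ D, inter C.cl X :=
  i_sum _ _ _

theorem lg_insert [DecidableEq (Crv S.W)] {D : Finset (Crv S.W)} {C : Crv S.W} (h : C ∉ D) :
    lg S (insert C D) = lg S D + C.cl := by rw [lg, rd_insert h, lg, add_assoc]

theorem H0_div {A : Div S.W} {g : K} (hg : g ≠ 0) (h : H0 A = ⊥) : H0 (A + div S.W g) = ⊥ :=
  (Submodule.eq_bot_iff _).2 fun f hf => by
    have := (Submodule.eq_bot_iff _).1 h _ ((mem_secOn_div S.all.toLoc2 hg f).1 hf)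
    simpa [hg] using this

theorem H0_neg {V : Div S.W} (hV : 0 ≤ V) (h0 : V ≠ 0) : H0 (-V) = ⊥ := by
  obtain ⟨C, hC⟩ := Finsupp.ne_iff.1 h0
  exact Rul.bot_of_neg S.all (Hd.nef_H S.all) (by
    rw [i_neg']; exact neg_lt_zero.2 (Rul.H_pos S.all hV hC))

/-! ### The arithmetic genus -/

theorem ag_add (A B : Div S.W) : S.ag (A + B) = S.ag A + S.ag B + 2 * inter A B := by
  simp only [Surf.ag, i_add, i_add', inter_comm B A]; ring

theorem ag_ge (C : Crv S.W) : -2 ≤ S.ag C.cl := by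
  have := gle cs K S C
  omega

theorem ag_even (A : Div S.W) : Even (S.ag A) := by
  have := S.all.rr (-A)
  simp only [i_neg, i_neg', neg_neg] at this
  exact ⟨chi (-A) - chi (0 : Div S.W), by unfold Surf.ag; omega⟩

theorem t0 (h : 1 ≤ chi (0 : Div S.W)) {V : Div S.W} (hV : 0 ≤ V) (h0 : V ≠ 0)
    (h1 : H0 (S.kap + V) = ⊥) : S.ag V ≤ -2 := by
  have a1 := S.all.le (-V)
  have a2 := S.all.rr (-V)
  rw [sub_neg_eq_add, h0_bot h1, h0_bot (H0_neg hV h0)] at a1
  simp only [i_neg, i_neg', neg_neg] at a2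
  unfold Surf.ag
  omega

/-- The light cone. -/
theorem cone {x y : Div S.W} (hx : 0 < inter x x) (hy : 0 < inter y y) (h1 : 0 < inter S.H x)
    (h2 : 0 < inter S.H y) : 0 < inter x y := by
  have := Hd.hodge S.all (inter S.H y • x - inter S.H x • y) (by simp only [i_sub', i_smul']; ring)
  simp only [i_sub, i_sub', i_smul, i_smul', inter_comm y x] at this
  by_contra o
  nlinarith [mul_pos (mul_pos h2 h2) hx, mul_pos (mul_pos h1 h1) hy,
    mul_nonneg (mul_pos h1 h2).le (neg_nonneg.2 (not_lt.1 o))]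

/-- A connected configuration. -/
theorem Conn.tree {D : Finset (Crv S.W)} (h : Conn D) (h0 : D.Nonempty) : -2 ≤ S.ag (rd D) := by
  classical
  have key : ∀ n, n + 1 ≤ D.card → ∃ A ⊆ D, A.card = n + 1 ∧ -2 ≤ S.ag (rd A) := by
    intro n
    induction n with
    | zero =>
      obtain ⟨C, hC⟩ := h0
      exact fun _ => ⟨{C}, by simpa, rfl, by simpa [rd] using ag_ge C⟩
    | succ n ih =>
      intro hn
      obtain ⟨A, a1, a2, a3⟩ := ih (by omega)
      obtain ⟨C, c1, C', c2, c3, c4⟩ := h A a1 (Finset.card_pos.1 (by omega))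
        (by rintro rfl; omega)
      refine ⟨insert C' A, Finset.insert_subset c2 a1, by rw [Finset.card_insert_of_notMem c3, a2],
        ?_⟩
      have := ag_ge C'
      have := Finset.single_le_sum (f := fun X : Crv S.W => inter X.cl C'.cl)
        (fun X hX => i_cl fun e => c3 (e ▸ hX)) c1
      rw [rd_insert c3, ag_add, i_rd]
      omega
  obtain ⟨A, a1, a2, a3⟩ := key (D.card - 1) (by have := h0.card_pos; omega)
  rwa [Finset.eq_of_subset_of_card_le a1 (by have := h0.card_pos; omega)] at a3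

open Classical in
/-- The neighbours of `C` in `D`. -/
noncomputable def nbr (D : Finset (Crv S.W)) (C : Crv S.W) : Finset (Crv S.W) :=
  D.filter fun X => X ≠ C ∧ 0 < inter X.cl C.cl

theorem mem_nbr {D : Finset (Crv S.W)} {C X : Crv S.W} :
    X ∈ nbr D C ↔ X ∈ D ∧ X ≠ C ∧ 0 < inter X.cl C.cl := by simp [nbr]

namespace Cls

variable {D : Finset (Crv S.W)} (h : Cls S D)
include h

theorem bot_nsmul {n : ℕ} (hn : n ≠ 0) : H0 (n • lg S D) = ⊥ := by
  obtain ⟨m, hm⟩ := h.nb 0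
  refine (Submodule.eq_bot_iff _).2 fun f hf => ?_
  have a1 := H0_nsmul hf (m + 1)
  rw [← mul_nsmul, ← zero_add (_ • _), hm _ (by nlinarith [Nat.pos_of_ne_zero hn])] at a1
  exact pow_eq_zero_iff (by omega) |>.1 a1

theorem bot_zsmul {n : ℤ} (hn : 0 < n) : H0 (n • lg S D) = ⊥ := by
  lift n to ℕ using hn.le
  rw [natCast_zsmul]
  exact h.bot_nsmul (by omega)

theorem bot : H0 (lg S D) = ⊥ := by simpa using h.bot_nsmul one_ne_zero

theorem ag_le {V : Div S.W} (hV : 0 ≤ V) (h0 : V ≠ 0) (h1 : V ≤ rd D) : S.ag V ≤ -2 :=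
  t0 h.chi hV h0 (eq_bot_mono (H0_mono (add_le_add_right h1 _)) h.bot)

theorem ag {C : Crv S.W} (hC : C ∈ D) : S.ag C.cl = -2 :=
  le_antisymm (h.ag_le (cl_nonneg C) (cl_ne_zero C)
    (Finset.single_le_sum (f := Crv.cl) (fun X _ => cl_nonneg X) hC)) (ag_ge C)

theorem le_one {C C' : Crv S.W} (hC : C ∈ D) (hC' : C' ∈ D) (e : C ≠ C') :
    inter C.cl C'.cl ≤ 1 := by
  classical
  have a1 : rd {C, C'} = C.cl + C'.cl := Finset.sum_pair e
  have a2 := h.ag_le (rd_nonneg {C, C'}) (rd_ne_zero (by simp))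
    (rd_mono (by simp [Finset.insert_subset_iff, hC, hC']))
  rw [a1, ag_add, h.ag hC, h.ag hC'] at a2
  omega

theorem nbr_one {C X : Crv S.W} (hC : C ∈ D) (hX : X ∈ nbr D C) : inter X.cl C.cl = 1 := by
  obtain ⟨a1, a2, a3⟩ := mem_nbr.1 hX
  have := h.le_one a1 hC a2
  omega

theorem nbr_zero {C X : Crv S.W} (h1 : X ∈ D) (h2 : X ≠ C) (hX : X ∉ nbr D C) :
    inter X.cl C.cl = 0 :=
  le_antisymm (not_lt.1 fun o => hX (mem_nbr.2 ⟨h1, h2, o⟩)) (i_cl h2)

/-- The degree of the logarithmic canonical divisor on a curve of `D`. -/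
theorem lg_cl {C : Crv S.W} (hC : C ∈ D) : inter (lg S D) C.cl = ((nbr D C).card : ℤ) - 2 := by
  classical
  have a1 := h.ag hC
  have a2 : ∑ X ∈ D.erase C, inter X.cl C.cl = (nbr D C).card := by
    rw [← Finset.sum_subset (s₁ := nbr D C) (fun X hX => Finset.mem_erase.2
      ⟨(mem_nbr.1 hX).2.1, (mem_nbr.1 hX).1⟩) fun X a b =>
        h.nbr_zero (Finset.mem_erase.1 a).2 (Finset.mem_erase.1 a).1 b,
      Finset.sum_congr rfl fun X hX => h.nbr_one hC hX]
    simp
  rw [lg, i_add, i_rd, ← Finset.add_sum_erase _ _ hC, a2]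
  unfold Surf.ag at a1
  omega

/-- No multiple of the logarithmic canonical divisor lies above a nef divisor. -/
theorem ne {m : ℤ} (hm : 0 < m) {G : Div S.W} (hG : 0 ≤ G) : ¬ S.Nef (m • lg S D - G) := by
  intro hN
  have hA := S.all
  generalize e : m • lg S D - G = N at hN
  obtain ⟨x⟩ := hA.pt_ne
  obtain ⟨k₀, hk⟩ := hA.gen_sec (-S.kap)
  have b1 := hA.sq
  let k : ℤ := max k₀ (|inter S.H S.kap| + 1)
  have b2 : inter S.H S.kap < k * inter S.H S.H := by
    have := le_abs_self (inter S.H S.kap)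
    have := abs_nonneg (inter S.H S.kap)
    have : |inter S.H S.kap| + 1 ≤ k := le_max_right _ _
    nlinarith
  have b3 : 0 < k := lt_of_lt_of_le (by positivity) (le_max_right _ _)
  obtain ⟨s, s1, s2⟩ := hk k (le_max_left _ _) x
  have b4 := Hd.nef_sec hA hN ((Submodule.ne_bot_iff _).2 ⟨s, s1, s2.1⟩)
  have b5 := Hd.nef_sec hA hN (Hd.H_sec hA)
  have b6 := Hd.nef_sq hA hN
  obtain ⟨n, hn⟩ := h.nb (k • S.H)
  have b7 := h.chi
  simp only [i_add', i_neg', i_smul'] at b4
  refine Hd.sec_of hA (x := k • S.H + (n : ℤ) • N) ?_ ?_ (eq_bot_mono (H0_mono ?_)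
    (hn (n * m.toNat) (Nat.le_mul_of_pos_right _ (by omega))))
  · simp only [i_add', i_smul', inter_comm S.H N]
    nlinarith [mul_nonneg (Int.natCast_nonneg n) b5]
  · simp only [i_add, i_add', i_smul, i_smul', inter_comm S.H N, inter_comm S.kap N,
      inter_comm S.kap S.H]
    have c0 := Int.natCast_nonneg n
    nlinarith [mul_nonneg c0 b4, mul_nonneg (mul_nonneg c0 c0) b6,
      mul_nonneg (mul_nonneg c0 b3.le) b5, mul_pos b3 (sub_pos.2 b2)]
  · rw [← e, smul_sub, ← natCast_zsmul, Nat.cast_mul, Int.toNat_of_nonneg hm.le, mul_smul]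
    exact add_le_add_right (sub_le_self _ (smul_nonneg (Int.natCast_nonneg n) hG)) _

end Cls

theorem Mnl.sq {D : Finset (Crv S.W)} (h : Mnl S D) {C : Crv S.W} (hC : C ∈ D)
    (h1 : inter (lg S D) C.cl ≤ 0) : inter C.cl C.cl ≠ -1 := fun e => by
  have := h.toCls.ag hC
  unfold Surf.ag at this
  exact (h.min C ⟨e, by change inter _ C.cl = _; omega⟩).not_ge h1

/-! ### Contractions -/

namespace Bd

variable {E : Crv S.W} (b : Bd S S' E)
include b

theorem inj : Function.Injective b.ι := fun C C' e =>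
  Crv.ext (by rw [← b.pl C, ← b.pl C', e])

theorem EE : inter E.cl E.cl = -1 := b.exc.1
theorem KE : inter S.kap E.cl = -1 := b.exc.2
theorem E_pb (A : Div S'.W) : inter E.cl (b.pb A) = 0 := by rw [inter_comm, b.pb_E]

/-- A divisor is determined by its image and its degree on `E`. -/
theorem ext {X : Div S.W} {A : Div S'.W} (h : ∀ C, X (b.ι C) = A C) :
    X = b.pb A - inter X E.cl • E.cl := by
  have a1 : X = b.pb A + (X E - b.pb A E) • E.cl := by
    ext C
    by_cases o : C = E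
    · simp [o]
    · obtain ⟨C', rfl⟩ := b.all C o
      simp [Finsupp.single_eq_of_ne o, h, b.pb_ι]
  have a2 : inter X E.cl = -(X E - b.pb A E) := by
    conv_lhs => rw [a1, i_add, i_smul, b.pb_E, b.EE]
    ring
  rw [a2, neg_smul, sub_neg_eq_add]
  exact a1

/-- The multiplicity of the centre on a curve. -/
noncomputable def mu (C : Crv S'.W) : ℤ := b.pb C.cl E

theorem cl_ι (C X : Crv S'.W) : (b.ι C).cl (b.ι X) = C.cl X := Finsupp.single_apply_left b.inj _ _ _

theorem mu_eq (C : Crv S'.W) : inter (b.ι C).cl E.cl = b.mu C := by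
  have := DFunLike.congr_fun (b.ext (b.cl_ι C)) E
  simp only [cl_ne (b.ne C).symm, Finsupp.sub_apply, Finsupp.smul_apply, cl_self, smul_eq_mul,
    mul_one] at this
  unfold mu
  omega

theorem mu_nonneg (C : Crv S'.W) : 0 ≤ b.mu C := b.mu_eq C ▸ i_cl (b.ne C)

theorem cl_eq (C : Crv S'.W) : (b.ι C).cl = b.pb C.cl - b.mu C • E.cl := by
  rw [← b.mu_eq]; exact b.ext (b.cl_ι C)

theorem pb_E_eq {A : Div S'.W} {D : Finset (Crv S'.W)} (h : On A D) :
    b.pb A E = ∑ C ∈ D, A C * b.mu C := by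
  conv_lhs => rw [h.eq_sum, map_sum, Finsupp.finset_sum_apply]
  simp only [map_zsmul, Finsupp.smul_apply, smul_eq_mul, mu]

theorem pb_nonneg {A : Div S'.W} (h : 0 ≤ A) : 0 ≤ b.pb A := fun C => by
  by_cases o : C = E
  · rw [o, b.pb_E_eq (on_support A)]
    exact Finset.sum_nonneg fun X _ => mul_nonneg (h X) (b.mu_nonneg X)
  · obtain ⟨C', rfl⟩ := b.all C o
    rw [b.pb_ι]
    exact h C'

theorem i_pb_ι (A : Div S'.W) (C : Crv S'.W) : inter (b.pb A) (b.ι C).cl = inter A C.cl := by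
  rw [b.cl_eq, i_sub', i_smul', b.inter_pb, b.pb_E, mul_zero, sub_zero]

theorem i_ι (C C' : Crv S'.W) :
    inter (b.ι C).cl (b.ι C').cl = inter C.cl C'.cl - b.mu C * b.mu C' := by
  rw [b.cl_eq C, i_sub, i_smul, b.i_pb_ι, inter_comm E.cl, b.mu_eq]

theorem i_kap (X : Div S.W) : inter S.kap X = inter (b.pb S'.kap) X + inter E.cl X := by
  rw [← i_add, ← b.kap, inter_lin S.all.toRR _ _ b.c_ne]

theorem kap_pb (A : Div S'.W) : inter S.kap (b.pb A) = inter S'.kap A := by
  rw [b.i_kap, b.inter_pb, b.E_pb, add_zero]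

theorem kap_ι (C : Crv S'.W) : inter S.kap (b.ι C).cl = inter S'.kap C.cl + b.mu C := by
  rw [b.i_kap, b.i_pb_ι, inter_comm E.cl, b.mu_eq]

theorem kap_sq : inter S.kap S.kap = inter S'.kap S'.kap - 1 := by
  rw [b.i_kap, inter_comm (b.pb _), b.kap_pb, inter_comm E.cl, b.KE]; ring

theorem ag_ι (C : Crv S'.W) : S.ag (b.ι C).cl = S'.ag C.cl - b.mu C * b.mu C + b.mu C := by
  unfold Surf.ag
  rw [b.i_ι, b.kap_ι]; ring

theorem ag_E : S.ag E.cl = -2 := by
  unfold Surf.ag
  rw [b.EE, b.KE]; rfl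

end Bd

end Vale.Agent.P297Z.Sf.Mp
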