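import Vale.Agent.P253Y.G.Defs
import Vale.Agent.P297Z.Surf.AllOf

/-! P253, surfaces, block G: the boundary supports a divisor of positive square; the rank bound. -/

set_option linter.all false

namespace Vale.Agent.P297Z.Sf.Mp

variable {K : Type} [Field K] [Algebra ℂ K] {S : Surf K}

namespace PosH

theorem clear {ι : Type} [Finite ι] (a : ι → ℚ) :
    ∃ (N : ℤ) (b : ι → ℤ), 0 < N ∧ ∀ i, (b i : ℚ) = N * a i := by
  obtain ⟨N, hN⟩ := IsLocalization.exist_integer_multiples_of_finite (Submonoid.pos ℤ) a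
  choose b hb using hN
  exact ⟨N, b, N.2, fun i => by simpa using hb i⟩

theorem inter_sum (hA : S.All) {ι : Type} [Fintype ι] (b : ι → ℤ) (A : ι → Div S.W)
    (X : Div S.W) : inter (∑ i, b i • A i) X = ∑ i, b i * inter (A i) X := by
  simp only [← interHom_apply hA.toRR, map_sum, map_zsmul, AddMonoidHom.finset_sum_apply,
    AddMonoidHom.smul_apply, smul_eq_mul]

theorem inter_sub (hA : S.All) (A B X : Div S.W) : inter (A - B) X = inter A X - inter B X := by
  simp only [← interHom_apply hA.toRR, map_sub, AddMonoidHom.sub_apply]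

/-- A multiple of the hyperplane class is numerically a divisor with support in `D`. -/
theorem span (hA : S.All) (D : Finset (Crv S.W))
    (h : ∀ A : Div S.W, (∀ C ∈ D, inter A C.cl = 0) → Nz A) :
    ∃ (N : ℤ) (A : Div S.W), 0 < N ∧ On A D ∧ ∀ X, inter A X = N * inter S.H X := by
  classical
  let L : Div S.W → (D → ℚ) →ₗ[ℚ] ℚ := fun X =>
    ∑ C : D, (inter C.1.cl X : ℚ) • LinearMap.proj C
  have hL : ∀ X a, L X a = ∑ C : D, a C * inter C.1.cl X := fun X a => by
    simp only [L, LinearMap.sum_apply, LinearMap.smul_apply, LinearMap.proj_apply, smul_eq_mul,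
      mul_comm]
  have hZ : ∀ {a : D → ℚ} {N : ℤ} {b : D → ℤ}, (∀ i, (b i : ℚ) = N * a i) → ∀ X,
      (inter (∑ C : D, b C • C.1.cl) X : ℚ) = N * L X a := fun {a N b} hb X => by
    rw [inter_sum hA, hL, Finset.mul_sum]
    push_cast
    exact Finset.sum_congr rfl fun C _ => by rw [hb, mul_assoc]
  have h1 : L S.H ∈ Submodule.span ℚ (Set.range fun C : D => L C.1.cl) := by
    refine mem_span_of_iInf_ker_le_ker fun a ha => ?_
    obtain ⟨N, b, hN, hb⟩ := clear a
    have h2 := h (∑ C : D, b C • C.1.cl) (fun C hC => by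
      have h3 := hZ hb C.cl
      rw [LinearMap.mem_ker.1 ((Submodule.mem_iInf _).1 ha ⟨C, hC⟩), mul_zero] at h3
      exact_mod_cast h3) S.H
    have h4 := hZ hb S.H
    rw [h2, Int.cast_zero] at h4
    exact (mul_eq_zero.1 h4.symm).resolve_left (by exact_mod_cast hN.ne')
  obtain ⟨y, hy⟩ := (Submodule.mem_span_range_iff_exists_fun ℚ).1 h1
  obtain ⟨N, b, hN, hb⟩ := clear y
  have h5 : ∀ X (C : D), L X (Pi.single C 1) = inter C.1.cl X := fun X C => by
    rw [hL, Finset.sum_eq_single C (fun C' _ e => by rw [Pi.single_eq_of_ne e, zero_mul])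
      (fun e => (e (Finset.mem_univ _)).elim), Pi.single_eq_same, one_mul]
  have h6 : ∀ X, inter (N • S.H) X = N * inter S.H X := fun X => by
    simp only [← interHom_apply hA.toRR, map_zsmul, AddMonoidHom.smul_apply, smul_eq_mul]
  refine ⟨N, ∑ C : D, b C • C.1.cl, hN, fun C hC => ?_, fun X => ?_⟩
  · rw [Finsupp.finset_sum_apply]
    refine Finset.sum_eq_zero fun C' _ => ?_
    have e : C ≠ C'.1 := fun e => hC (e ▸ C'.2)
    rw [Finsupp.smul_apply, Crv.cl, Finsupp.single_eq_of_ne e, smul_zero]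
  · have h7 := h (∑ C : D, b C • C.1.cl - N • S.H) (fun C hC => by
      have h8 := LinearMap.congr_fun hy (Pi.single ⟨C, hC⟩ 1)
      simp only [LinearMap.sum_apply, LinearMap.smul_apply, h5, smul_eq_mul,
        inter_comm C.cl] at h8
      have h9 := hZ hb C.cl
      rw [hL, h8] at h9
      rw [inter_sub hA, h6, sub_eq_zero]
      exact_mod_cast h9) X
    rwa [inter_sub hA, h6, sub_eq_zero] at h7

end PosH

open PosH

theorem pos : POS := fun K _ _ S D h => by
  have hA := S.all
  obtain ⟨N, A, hN, hD, h1⟩ := span hA D h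
  have e : A⁺ - A⁻ = A := posPart_sub_negPart A
  have p1 : ∀ C, A⁺ C = max (A C) 0 := fun C => rfl
  have p2 : ∀ C, A⁻ C = max (-A C) 0 := fun C => rfl
  have h2 : 0 ≤ inter A⁻ A⁺ := inter_nonneg hA.inte (negPart_nonneg A) (posPart_nonneg A)
    fun C => by rw [p1, p2]; omega
  have h3 : 0 < inter S.H A⁺ := by
    by_contra h4
    have h5 : A⁺ = 0 := by
      ext C
      by_contra h6
      exact h4 (Rul.H_pos hA (posPart_nonneg A) h6)
    have h7 : 0 ≤ inter S.H A⁻ := by
      by_cases h8 : A⁻ = 0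
      · rw [h8, Hd.inter_zero hA]
      · obtain ⟨C, hC⟩ := Finsupp.ne_iff.1 h8
        exact (Rul.H_pos hA (negPart_nonneg A) hC).le
    have h9 := inter_sub hA A⁺ A⁻ S.H
    rw [e, h1, h5, inter_comm 0, Hd.inter_zero hA, inter_comm A⁻] at h9
    nlinarith [hA.sq]
  refine ⟨A⁺, fun C hC => by rw [p1, hD C hC, max_self], posPart_nonneg A, ?_⟩
  have h4 := inter_sub hA A⁺ A⁻ A⁺
  rw [e, h1] at h4
  nlinarith

theorem dep : DEP := fun K _ _ S D h A => by
  have hA := S.all
  let f : (Fin (D.card + 1) → ℤ) →ₗ[ℤ] (D → ℤ) :=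
    LinearMap.pi fun C => ∑ i, inter (A i) C.1.cl • LinearMap.proj i
  have h1 : ¬ Function.Injective f := fun hf => by
    have h2 := LinearMap.finrank_le_finrank_of_injective hf
    simp at h2
  rw [injective_iff_map_eq_zero] at h1
  push Not at h1
  obtain ⟨c, h2, h3⟩ := h1
  refine ⟨c, h3, h _ fun C hC => ?_⟩
  have h4 := congrFun h2 ⟨C, hC⟩
  simp only [f, LinearMap.pi_apply, LinearMap.sum_apply, LinearMap.smul_apply,
    LinearMap.proj_apply, smul_eq_mul, Pi.zero_apply] at h4
  rw [inter_sum hA, ← h4]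
  exact Finset.sum_congr rfl fun i _ => mul_comm _ _

end Vale.Agent.P297Z.Sf.Mp
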