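import Vale.Agent.P253Y.G.Defs

/-! P253, surfaces, block G: the class of pairs is stable under contractions. -/

set_option linter.all false

namespace Vale.Agent.P297Z.Sf.Mp

open Vale.Agent.P297 (Place)

namespace St

variable {K : Type} [Field K] [Algebra ℂ K] {S S' : Surf K} {E : Crv S.W}

theorem add_l (S : Surf K) (A A' X : Div S.W) : inter (A + A') X = inter A X + inter A' X :=
  S.all.toRR.add A A' X

theorem smul_l (S : Surf K) (n : ℤ) (A X : Div S.W) : inter (n • A) X = n * inter A X := by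
  rw [← S.B_apply, map_zsmul, AddMonoidHom.zsmul_apply, smul_eq_mul, S.B_apply]

theorem add_r (S : Surf K) (X A A' : Div S.W) : inter X (A + A') = inter X A + inter X A' := by
  rw [inter_comm, add_l, inter_comm A, inter_comm A']

theorem smul_r (S : Surf K) (n : ℤ) (X A : Div S.W) : inter X (n • A) = n * inter X A := by
  rw [inter_comm, smul_l, inter_comm A]

theorem inj (b : Bd S S' E) : Function.Injective b.ι := fun C C' h =>
  Crv.ext (by rw [← b.pl C, ← b.pl C', h])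

/-- The pull back is determined by the coefficients off `E`. -/
theorem pb_eq (b : Bd S S' E) {X : Div S.W} {A : Div S'.W} (h : ∀ C, X (b.ι C) = A C) :
    b.pb A = X + inter X E.cl • E.cl := by
  have h1 : b.pb A = X + (b.pb A E - X E) • E.cl := by
    ext C
    by_cases hC : C = E
    · subst hC
      simp
    · obtain ⟨C', rfl⟩ := b.all C hC
      simp [b.pb_ι, h, Finsupp.single_apply, (b.ne C').symm]
  have h2 := b.pb_E A
  rw [h1, add_l, smul_l, b.exc.1] at h2
  rw [h1]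
  congr 2
  omega

theorem pb_cl (b : Bd S S' E) (C : Crv S'.W) :
    b.pb C.cl = (b.ι C).cl + inter (b.ι C).cl E.cl • E.cl :=
  pb_eq b fun C' => by
    classical
    simp only [Finsupp.single_apply, (inj b).eq_iff]

theorem proj (b : Bd S S' E) (A : Div S'.W) (C : Crv S'.W) :
    inter (b.pb A) (b.ι C).cl = inter A C.cl := by
  rw [← b.inter_pb, pb_cl, add_r, smul_r, b.pb_E]
  simp

theorem cl_nonneg (S : Surf K) {C C' : Crv S.W} (h : C ≠ C') : 0 ≤ inter C.cl C'.cl := by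
  classical
  refine inter_nonneg S.all.inte (Finsupp.single_nonneg.2 zero_le_one)
    (Finsupp.single_nonneg.2 zero_le_one) fun X => ?_
  by_cases hX : C = X
  · subst hX
    right
    simp [Finsupp.single_apply, h.symm]
  · left
    simp [Finsupp.single_apply, hX]

theorem inter_cl (b : Bd S S' E) (C C' : Crv S'.W) : inter C.cl C'.cl =
    inter (b.ι C).cl (b.ι C').cl + inter (b.ι C).cl E.cl * inter (b.ι C').cl E.cl := by
  rw [← proj b, pb_cl, add_l, smul_l, inter_comm E.cl]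

/-- Every divisor is a pull back up to a multiple of `E`. -/
theorem ex_pb (b : Bd S S' E) (X : Div S.W) :
    ∃ A : Div S'.W, b.pb A = X + inter X E.cl • E.cl :=
  ⟨Finsupp.comapDomain b.ι X (inj b).injOn, pb_eq b fun C => by simp⟩

theorem nz_pb (b : Bd S S' E) {A : Div S'.W} : Nz (b.pb A) ↔ Nz A := by
  refine ⟨fun h X => by rw [← b.inter_pb]; exact h _, fun h X => ?_⟩
  obtain ⟨Y, hY⟩ := ex_pb b X
  have h1 := b.inter_pb A Y
  rw [hY, add_r, smul_r, b.pb_E, h Y] at h1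
  simpa using h1

theorem rd_apply {W : Submodule ℂ K} (D : Finset (Crv W)) (C : Crv W) [Decidable (C ∈ D)] :
    rd D C = if C ∈ D then 1 else 0 := by
  classical
  simp only [rd, Finsupp.finset_sum_apply, Finsupp.single_apply]
  rw [Finset.sum_ite_eq']
  congr

theorem kap_eq (b : Bd S S' E) : b.pb S'.kap = S.kap + (-1 : ℤ) • E.cl + div S.W b.c := by
  have h := b.kap
  rw [neg_one_smul, add_right_comm, h]
  abel

theorem kap_sq (b : Bd S S' E) : inter S'.kap S'.kap = inter S.kap S.kap + 1 := by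
  rw [← b.inter_pb, kap_eq, inter_lin S.all.toRR _ _ b.c_ne, inter_comm,
    inter_lin S.all.toRR _ _ b.c_ne]
  simp only [add_l, add_r, smul_l, smul_r, inter_comm E.cl S.kap, b.exc.1, b.exc.2]
  ring

theorem lg_eq (b : Bd S S' E) {D : Finset (Crv S.W)} {D' : Finset (Crv S'.W)}
    (h : ∀ C, C ∈ D' ↔ b.ι C ∈ D) :
    b.pb (lg S' D') = lg S D + inter (lg S D) E.cl • E.cl + div S.W b.c := by
  classical
  have h1 : b.pb (rd D') = rd D + inter (rd D) E.cl • E.cl :=
    pb_eq b fun C => by simp only [rd_apply, h]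
  rw [lg, map_add, kap_eq, h1, lg, add_l, b.exc.2, add_smul]
  abel

theorem nb (b : Bd S S' E) {D : Finset (Crv S.W)} {D' : Finset (Crv S'.W)}
    (h : ∀ C, C ∈ D' ↔ b.ι C ∈ D) (hc : Cls S D) (hE : inter (lg S D) E.cl ≤ 0)
    (Γ : Div S'.W) : ∃ n₀ : ℕ, ∀ n : ℕ, n₀ ≤ n → H0 (Γ + n • lg S' D') = ⊥ := by
  obtain ⟨n₀, h0⟩ := hc.nb (b.pb Γ)
  refine ⟨n₀, fun n hn => ?_⟩
  rw [← b.H0_pb, map_add, map_nsmul, lg_eq b h, eq_bot_iff]
  intro f hf
  by_contra hf0
  have hf1 : f ≠ 0 := fun e => hf0 (by simp [e])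
  have h1 : f * b.c ^ n ∈ H0 (b.pb Γ + n • lg S D) := by
    refine Or.inr fun C _ => ?_
    have a1 := (mem_secOn.1 hf).resolve_left hf1 C trivial
    have a2 : 0 ≤ (E.cl : Div S.W) C := Finsupp.single_nonneg.2 zero_le_one C
    have a3 : C.ord (f * b.c ^ n) = C.ord f + n * C.ord b.c := by
      unfold Crv.ord
      rw [Pl.ord_mul _ hf1 (pow_ne_zero _ b.c_ne), Pl.ord_pow]
    simp only [Finsupp.add_apply, Finsupp.smul_apply, div_apply S.all.toLoc2, nsmul_eq_mul,
      smul_eq_mul] at a1 ⊢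
    have a4 : (n : ℤ) * (inter (lg S D) E.cl * (E.cl : Div S.W) C) ≤ 0 :=
      mul_nonpos_of_nonneg_of_nonpos (Int.natCast_nonneg n) (mul_nonpos_of_nonpos_of_nonneg hE a2)
    rw [a3]
    nlinarith
  rw [h0 n hn, Submodule.mem_bot] at h1
  exact mul_ne_zero hf1 (pow_ne_zero _ b.c_ne) h1

theorem conn (b : Bd S S' E) {D : Finset (Crv S.W)} {D' : Finset (Crv S'.W)}
    (h : ∀ C, C ∈ D' ↔ b.ι C ∈ D) (hc : Conn D) : Conn D' := by
  classical
  intro A hA hne hD
  obtain ⟨C₀, h0, h0'⟩ : ∃ C₀ ∈ D', C₀ ∉ A := by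
    by_contra hh
    push Not at hh
    exact hD (Finset.Subset.antisymm hA hh)
  have mem : ∀ C, b.ι C ∈ A.image b.ι ↔ C ∈ A := fun C => (inj b).mem_finset_image
  have sub : A.image b.ι ⊆ D := fun X hX => by
    obtain ⟨C, hC, rfl⟩ := Finset.mem_image.1 hX
    exact (h C).1 (hA hC)
  have mu : ∀ C, 0 ≤ inter (b.ι C).cl E.cl := fun C => cl_nonneg S (b.ne C)
  have fin : ∀ C ∈ A, ∀ C', b.ι C' ∈ D → C' ∉ A →
      (0 < inter (b.ι C).cl (b.ι C').cl ∨
        (0 < inter (b.ι C).cl E.cl ∧ 0 < inter (b.ι C').cl E.cl)) →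
      ∃ C ∈ A, ∃ C' ∈ D', C' ∉ A ∧ 0 < inter C.cl C'.cl := by
    intro C hC C' h1 h2 h3
    refine ⟨C, hC, C', (h C').2 h1, h2, ?_⟩
    have a1 : 0 ≤ inter (b.ι C).cl (b.ι C').cl :=
      cl_nonneg S fun e => h2 (inj b e ▸ hC)
    rw [inter_cl b]
    rcases h3 with h3 | ⟨h3, h4⟩
    · have := mul_nonneg (mu C) (mu C')
      omega
    · have := mul_pos h3 h4
      omega
  obtain ⟨X, hX, Y, hY, hY', hp⟩ := hc _ sub (hne.image _) fun e =>
    h0' ((mem C₀).1 (e ▸ (h C₀).1 h0))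
  obtain ⟨C, hC, rfl⟩ := Finset.mem_image.1 hX
  by_cases hYE : Y = E
  · subst hYE
    obtain ⟨X', hX', Y', hY1, hY2, hp'⟩ := hc (insert Y (A.image b.ι))
      (Finset.insert_subset hY sub) (Finset.insert_nonempty _ _) fun e => by
        have a1 : b.ι C₀ ∈ insert Y (A.image b.ι) := e ▸ (h C₀).1 h0
        rcases Finset.mem_insert.1 a1 with a1 | a1
        · exact b.ne _ a1
        · exact h0' ((mem C₀).1 a1)
    rw [Finset.mem_insert, not_or] at hY2
    obtain ⟨C', rfl⟩ := b.all Y' hY2.1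
    have a2 : C' ∉ A := fun e => hY2.2 ((mem C').2 e)
    rcases Finset.mem_insert.1 hX' with rfl | hX'
    · exact fin C hC C' hY1 a2 (Or.inr ⟨hp, by rwa [inter_comm]⟩)
    · obtain ⟨C₃, hC₃, rfl⟩ := Finset.mem_image.1 hX'
      exact fin C₃ hC₃ C' hY1 a2 (Or.inl hp')
  · obtain ⟨C', rfl⟩ := b.all Y hYE
    exact fin C hC C' hY (fun e => hY' ((mem C').2 e)) (Or.inl hp)

theorem perp (b : Bd S S' E) {D : Finset (Crv S.W)} {D' : Finset (Crv S'.W)}
    (h : ∀ C, C ∈ D' ↔ b.ι C ∈ D) (hc : Cls S D) (A : Div S'.W)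
    (hA : ∀ C ∈ D', inter A C.cl = 0) : Nz A := by
  refine (nz_pb b).1 (hc.perp _ fun C hC => ?_)
  by_cases hE : C = E
  · rw [hE, b.pb_E]
  · obtain ⟨C', rfl⟩ := b.all C hE
    rw [proj, hA C' ((h C').2 hC)]

theorem n3 (b : Bd S S' E) {D : Finset (Crv S.W)} (hc : Cls S D) (n : ℕ) (A : Fin n → Div S'.W)
    (hA : ∀ X : Div S'.W, (∀ i, inter X (A i) = 0) → Nz X) : 7 ≤ inter S'.kap S'.kap + n := by
  have h := hc.n3 (n + 1) (Fin.cons E.cl fun i => b.pb (A i)) fun X hX => by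
    have h0 : inter X E.cl = 0 := hX 0
    obtain ⟨Y, hY⟩ := ex_pb b X
    rw [h0, zero_smul, add_zero] at hY
    rw [← hY]
    refine (nz_pb b).2 (hA Y fun i => ?_)
    rw [← b.inter_pb, hY]
    exact hX i.succ
  rw [kap_sq b]
  push_cast at h
  omega

theorem dep (b : Bd S S' E) (n : ℕ) (h : Dep S (n + 1)) : Dep S' n := by
  intro A
  obtain ⟨c, hc, hN⟩ := h (Fin.cons E.cl fun i => b.pb (A i))
  have e : (∑ i, c i • (Fin.cons E.cl fun i => b.pb (A i) : Fin (n + 1) → Div S.W) i) =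
      c 0 • E.cl + b.pb (∑ i : Fin n, c i.succ • A i) := by
    rw [Fin.sum_univ_succ, map_sum]
    simp only [Fin.cons_zero, Fin.cons_succ, map_zsmul]
  rw [e] at hN
  have h0 : c 0 = 0 := by
    have a1 := hN E.cl
    rw [add_l, smul_l, b.exc.1, b.pb_E] at a1
    omega
  rw [h0, zero_smul, zero_add] at hN
  refine ⟨fun i => c i.succ, fun hz => hc ?_, (nz_pb b).1 hN⟩
  funext i
  refine Fin.cases h0 (fun j => ?_) i
  exact congrFun hz j

end St

/-- The class is stable under contractions. -/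
theorem step : STEP := by
  intro K _ _ S S' E b D hc hE
  refine ⟨⟨D.preimage b.ι (St.inj b).injOn, ?_, ?_⟩, fun n => St.dep b n⟩
  · have h : ∀ C, C ∈ D.preimage b.ι (St.inj b).injOn ↔ b.ι C ∈ D := fun C => Finset.mem_preimage
    exact ⟨hc.chi.trans b.chi_le, St.nb b h hc hE, St.perp b h hc, St.conn b h hc.conn,
      St.n3 b hc⟩
  · rintro v ⟨C, hC, rfl⟩
    exact ⟨b.ι C, fun e => hC (Finset.mem_preimage.2 e), b.pl C⟩

end Vale.Agent.P297Z.Sf.Mp
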