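import Vale.Agent.P297Y.Alg.Sk
import Vale.Agent.P297Y.Ctr.Defs
import Vale.Agent.P297Y.Ctr.Hodge

/-! P253, surfaces, block G: the minimal model program for the pair `(S, D)`. Statements. -/

set_option linter.all false

namespace Vale.Agent.P297Z.Sf.Mp

open Vale.Agent.P297 (Place)

variable {K : Type} [Field K] [Algebra ℂ K]

/-- The reduced divisor. -/
noncomputable def rd {W : Submodule ℂ K} (D : Finset (Crv W)) : Div W := ∑ C ∈ D, C.cl

/-- The logarithmic canonical divisor. -/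
noncomputable def lg (S : Surf K) (D : Finset (Crv S.W)) : Div S.W := S.kap + rd D

/-- The support of `A` lies in `D`. -/
def On {W : Submodule ℂ K} (A : Div W) (D : Finset (Crv W)) : Prop := ∀ C, C ∉ D → A C = 0

/-- Numerically trivial divisors. -/
def Nz {W : Submodule ℂ K} (A : Div W) : Prop := ∀ X, inter A X = 0

/-- The curves of `D` form a connected configuration. -/
def Conn {W : Submodule ℂ K} (D : Finset (Crv W)) : Prop :=
  ∀ A ⊆ D, A.Nonempty → A ≠ D → ∃ C ∈ A, ∃ C' ∈ D, C' ∉ A ∧ 0 < inter C.cl C'.cl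

/-- The class of pairs. -/
structure Cls (S : Surf K) (D : Finset (Crv S.W)) : Prop where
  chi : 1 ≤ chi (0 : Div S.W)
  nb : ∀ Γ : Div S.W, ∃ n₀ : ℕ, ∀ n : ℕ, n₀ ≤ n → H0 (Γ + n • lg S D) = ⊥
  perp : ∀ A : Div S.W, (∀ C ∈ D, inter A C.cl = 0) → Nz A
  conn : Conn D
  n3 : ∀ (n : ℕ) (A : Fin n → Div S.W), (∀ X : Div S.W, (∀ i, inter X (A i) = 0) → Nz X) →
    7 ≤ inter S.kap S.kap + n

/-- The places of the curves that are not in `D`. -/
def out (S : Surf K) (D : Finset (Crv S.W)) : Set (Place K) :=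
  {v | ∃ C : Crv S.W, C ∉ D ∧ C.pl = v}

/-- The output: a ruling of another model, with a section `T` whose centre on `S` lies in `D`;
the other horizontal curves are curves of `S` that are not in `D`. -/
def Out (S : Surf K) (D : Finset (Crv S.W)) : Prop :=
  ∃ (S' : Surf K) (P : Pen S') (T : Crv S'.W), inter S'.kap P.F = -2 ∧ P.Hor T ∧
    inter P.F T.cl = 1 ∧ (∀ C, P.Hor C → C ≠ T → C.pl ∈ out S D) ∧
    ∀ x : Pt S.W, (∀ C ∈ D, ¬ x.On C) → ¬ ∀ f ∈ x.ring, f ∈ T.pl.ring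

/-- The statement of the block. -/
def MMP : Prop := ForAll fun S => ∀ D : Finset (Crv S.W), Cls S D → Out S D

/-! ### The rows -/

variable (K) in
/-- The weak output. -/
def Cyl (Q : Set (Place K)) : Prop :=
  ∃ (S : Surf K) (P : Pen S) (T : Crv S.W), inter S.kap P.F = -2 ∧ inter P.F T.cl ≤ 1 ∧
    ∀ C, P.Hor C → C ≠ T → C.pl ∈ Q

theorem Cyl.mono {Q Q' : Set (Place K)} (h : Cyl K Q) (e : Q ⊆ Q') : Cyl K Q' := by
  obtain ⟨S, P, T, h1, h2, h3⟩ := h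
  exact ⟨S, P, T, h1, h2, fun C a b => e (h3 C a b)⟩

/-- The morphism `S → S'` contracts the curve `E` to the point `q`. -/
structure Geo (S S' : Surf K) (E : Crv S.W) where
  /-- the curves -/
  ι : Crv S'.W → Crv S.W
  pl : ∀ C, (ι C).pl = C.pl
  ne : ∀ C, ι C ≠ E
  all : ∀ C, C ≠ E → ∃ C', ι C' = C
  /-- the points -/
  p : Pt S.W → Pt S'.W
  dom : Dominates p
  /-- the centre -/
  q : Pt S'.W
  ctr : ∀ x, x.On E → p x = q

/-- The numerical properties of the contraction of an exceptional curve. -/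
structure Bd (S S' : Surf K) (E : Crv S.W) where
  /-- the curves -/
  ι : Crv S'.W → Crv S.W
  /-- the pull back -/
  pb : Div S'.W →+ Div S.W
  /-- the quotient of the two forms -/
  c : K
  pl : ∀ C, (ι C).pl = C.pl
  ne : ∀ C, ι C ≠ E
  all : ∀ C, C ≠ E → ∃ C', ι C' = C
  pb_ι : ∀ A C, pb A (ι C) = A C
  inter_pb : ∀ A B, inter (pb A) (pb B) = inter A B
  pb_E : ∀ A, inter (pb A) E.cl = 0
  exc : IsExc S E
  c_ne : c ≠ 0
  kap : S.kap + div S.W c = pb S'.kap + E.cl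
  H0_pb : ∀ A, H0 (pb A) = H0 A
  chi_le : chi (0 : Div S.W) ≤ chi (0 : Div S'.W)

/-- The numerical properties follow from the geometric ones. -/
def BDOF : Prop := ∀ (K : Type) [Field K] [Algebra ℂ K] (S S' : Surf K) (E : Crv S.W)
  (g : Geo S S' E), IsExc S E →
    ∃ b : Bd S S' E, ∀ (A : Div S'.W) (t : K), GenAt g.q (-A) t → b.pb A E = E.ord t

/-- Contraction, geometric form. -/
def GEO1 : Prop := ForAll fun {K} _ _ S => ∀ E : Crv S.W, IsExc S E →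
  ∃ S' : Surf K, Nonempty (Geo S S' E)

/-- Blowing up, geometric form. -/
def GEO2 : Prop := ForAll fun {K} _ _ S' => ∀ x : Pt S'.W,
  ∃ (S : Surf K) (E : Crv S.W) (g : Geo S S' E), g.q = x ∧ IsExc S E ∧
    chi (0 : Div S.W) = chi (0 : Div S'.W) ∧
    ∀ f ∈ x.ring, f ≠ 0 → 0 ≤ E.ord f ∧ (0 < E.ord f ↔ x.Van f)

/-- Contraction. -/
def CN1 : Prop := ForAll fun {K} _ _ S => ∀ E : Crv S.W, IsExc S E →
  ∃ S' : Surf K, Nonempty (Bd S S' E)

/-- Blowing up. -/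
def CN2 : Prop := ForAll fun {K} _ _ S' => ∀ x : Pt S'.W,
  ∃ (S : Surf K) (E : Crv S.W) (b : Bd S S' E), chi (0 : Div S.W) = chi (0 : Div S'.W) ∧
    ∀ C : Crv S'.W, x.On C ↔ 0 < b.pb C.cl E

/-- An effective divisor of positive square with support in `D`. -/
def POS : Prop := ForAll fun S => ∀ D : Finset (Crv S.W),
  (∀ A : Div S.W, (∀ C ∈ D, inter A C.cl = 0) → Nz A) →
  ∃ A : Div S.W, On A D ∧ 0 ≤ A ∧ 0 < inter A A

/-- The pencil of a nef divisor of square zero. -/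
def PEN : Prop := ForAll fun {K} _ _ S => 1 ≤ chi (0 : Div S.W) →
  ∀ (D : Finset (Crv S.W)) (Z : Div S.W), 0 ≤ Z → S.Nef Z → inter Z Z = 0 →
  inter (lg S D) Z < 0 → Cyl K (out S D)

/-- The resolution of the base point of the pencil. -/
def EUC : Prop := ForAll fun {K} _ _ S => 1 ≤ chi (0 : Div S.W) →
  ∀ (D : Finset (Crv S.W)) (Z : Div S.W), ∀ T ∈ D, S.ag T.cl ≤ -2 → 0 ≤ Z → S.Nef Z → 0 < Z T →
  inter Z Z = Z T * inter Z T.cl →
  ((∃ R ∈ D, inter T.cl R.cl = 1 ∧ Z R = 0 ∧ inter Z R.cl = Z T ∧ inter (lg S D) Z < 0) ∨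
    inter (lg S D) Z + Z T < 0) → Cyl K (out S D)

/-- Some horizontal curve has its centre in `D`. -/
def NOH : Prop := ForAll fun {K} _ _ S => ∀ (D : Finset (Crv S.W)) (A : Div S.W), On A D →
  0 ≤ A → 0 < inter A A → ∀ (S' : Surf K) (P : Pen S'), ¬ ∀ C, P.Hor C →
    ∃ x : Pt S.W, (∀ C' ∈ D, ¬ x.On C') ∧ ∀ f ∈ x.ring, f ∈ C.pl.ring

/-- Any `n` divisors are numerically dependent. -/
def Dep (S : Surf K) (n : ℕ) : Prop :=
  ∀ A : Fin n → Div S.W, ∃ c : Fin n → ℤ, c ≠ 0 ∧ Nz (∑ i, c i • A i)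

/-- The bound for the rank. -/
def DEP : Prop := ForAll fun S => ∀ D : Finset (Crv S.W),
  (∀ A : Div S.W, (∀ C ∈ D, inter A C.cl = 0) → Nz A) → Dep S (D.card + 1)

/-- The class is stable under contractions. -/
def STEP : Prop := ∀ (K : Type) [Field K] [Algebra ℂ K] (S S' : Surf K) (E : Crv S.W)
  (b : Bd S S' E) (D : Finset (Crv S.W)), Cls S D → inter (lg S D) E.cl ≤ 0 →
  (∃ D' : Finset (Crv S'.W), Cls S' D' ∧ out S' D' ⊆ out S D) ∧
    ∀ n, Dep S (n + 1) → Dep S' n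

/-- Minimal pairs. -/
structure Mnl (S : Surf K) (D : Finset (Crv S.W)) : Prop extends Cls S D where
  min : ∀ E, IsExc S E → 0 < inter (lg S D) E.cl

open Classical in
/-- A twig `T` of `D` with tip `τ` and last curve `r`, attached to the curve `b`. -/
structure Tw (S : Surf K) (D : Finset (Crv S.W)) (τ : Crv S.W) where
  /-- the curves of the twig -/
  T : Finset (Crv S.W)
  /-- the last curve -/
  r : Crv S.W
  /-- the next curve -/
  b : Crv S.W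
  /-- the discriminant -/
  d : ℤ
  /-- the discriminant without the last curve -/
  q : ℤ
  /-- the dual of the last curve -/
  Y : Div S.W
  /-- the dual of the tip -/
  Z : Div S.W
  /-- the dual of the tip without the last curve -/
  W : Div S.W
  sub : T ⊆ D
  τ_mem : τ ∈ T
  r_mem : r ∈ T
  b_mem : b ∈ D
  b_not : b ∉ T
  l_tip : inter (lg S D) τ.cl = -1
  l_zero : ∀ C ∈ T, C ≠ τ → inter (lg S D) C.cl = 0
  rb : inter r.cl b.cl = 1
  nb : ∀ C ∈ T, ∀ C' ∈ D, C' ∉ T → (C = r ∧ C' = b) ∨ inter C.cl C'.cl = 0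
  conn : Conn T
  q_pos : 1 ≤ q
  q_lt : q < d
  q_one : q = 1 → T = {r}
  Y_on : On Y T
  Y_nonneg : 0 ≤ Y
  Y_r : Y r = q
  Y_τ : Y τ = 1
  Y_int : ∀ C ∈ T, inter Y C.cl = if C = r then -d else 0
  Z_on : On Z T
  Z_r : Z r = 1
  Z_int : ∀ C ∈ T, inter Z C.cl = if C = τ then -d else 0
  Z_lt : ∀ C, Z C < d
  W_on : On W T
  W_r : W r = 0
  W_int : ∀ C ∈ T, inter W C.cl = (if C = τ then -q else 0) + if C = r then 1 else 0
  W_nonneg : 0 ≤ W
  W_le : W ≤ Z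
  gap : ∀ C, q - W C ≤ d - Z C

/-- Maximal twigs exist. -/
def TWIG : Prop := ForAll fun {K} _ _ S => ∀ D : Finset (Crv S.W), Mnl S D → ∀ τ ∈ D,
  inter (lg S D) τ.cl = -1 → Cyl K (out S D) ∨ ∃ t : Tw S D τ, 1 ≤ inter (lg S D) t.b.cl

/-- The bark. -/
def Bark (S : Surf K) (D : Finset (Crv S.W)) : Prop :=
  ∃ (m : ℤ) (G : Div S.W), 0 < m ∧ 0 ≤ G ∧ G ≤ m • rd D ∧
    (∀ C ∈ D, 0 ≤ inter (m • lg S D - G) C.cl) ∧ inter (m • lg S D - G) G = 0

/-- `D` is a fork with three twigs. -/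
def Fork (S : Surf K) (D : Finset (Crv S.W)) : Prop :=
  ∃ (τ : Fin 3 → Crv S.W) (t : ∀ i, Tw S D (τ i)) (b : Crv S.W), (∀ i, (t i).b = b) ∧
    inter (lg S D) b.cl = 1 ∧ (∀ i j, i ≠ j → Disjoint (t i).T (t j).T) ∧
    (∀ C ∈ D, C = b ∨ ∃ i, C ∈ (t i).T) ∧
    (t 0).d * (t 1).d * (t 2).d < (t 1).d * (t 2).d + (t 0).d * (t 2).d + (t 0).d * (t 1).d

/-- The combinatorics of the boundary. -/
def COMB : Prop := ForAll fun S => ∀ D : Finset (Crv S.W), Mnl S D →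
  (∀ C ∈ D, -1 ≤ inter (lg S D) C.cl) →
  (∀ τ ∈ D, inter (lg S D) τ.cl = -1 → ∃ t : Tw S D τ, 1 ≤ inter (lg S D) t.b.cl) →
  Bark S D ∨ Fork S D

/-- The adjoint curve. -/
def ADJC : Prop := ForAll fun {K} _ _ S => ∀ D : Finset (Crv S.W), Mnl S D → Bark S D →
  Cyl K (out S D)

/-- The arithmetic of the forks. -/
def ARI : Prop := ∀ (d q t : Fin 3 → ℤ) (s n : ℤ), (∀ i, 1 ≤ q i ∧ q i < d i) →
  (∀ i, q i = 1 → t i = 1) → d 0 * d 1 * d 2 < d 1 * d 2 + d 0 * d 2 + d 0 * d 1 →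
  0 < d 0 * d 1 * d 2 * s + (d 1 * d 2 * q 0 + d 0 * d 2 * q 1 + d 0 * d 1 * q 2) →
  (d 1 * d 2 + d 0 * d 2 + d 0 * d 1 - d 0 * d 1 * d 2) ^ 2 =
    (d 0 * d 1 * d 2 * s + (d 1 * d 2 * q 0 + d 0 * d 2 * q 1 + d 0 * d 1 * q 2)) *
    (d 0 * d 1 * d 2 * n + (d 1 * d 2 * t 0 + d 0 * d 2 * t 1 + d 0 * d 1 * t 2)) →
  s = -1 ∧ ∀ i, q i = 1

/-- There is no fork. -/
def FORK : Prop := ForAll fun S => ∀ D : Finset (Crv S.W), Mnl S D → ¬ Fork S D

end Vale.Agent.P297Z.Sf.Mp
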