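import Vale.Agent.P253Y.G.Basic
import Vale.Agent.P297Y.Alg.Penb
import Vale.Agent.P297Y.Alg.Penn

/-! P253, surfaces, block G: the assembly of the rows. -/

set_option linter.all false

namespace Vale.Agent.P297Z.Sf.Mp

variable {K : Type} [Field K] [Algebra ℂ K] {S : Surf K}

theorem cn1_of (h1 : GEO1) (h2 : BDOF) : CN1 := fun K _ _ S E hE => by
  obtain ⟨S', ⟨g⟩⟩ := h1 K S E hE
  obtain ⟨b, -⟩ := h2 K S S' E g hE
  exact ⟨S', ⟨b⟩⟩

theorem cn2_of (h1 : GEO2) (h2 : BDOF) : CN2 := fun K _ _ S' x => by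
  obtain ⟨S, E, g, rfl, hE, hc, ho⟩ := h1 K S' x
  obtain ⟨b, hb⟩ := h2 K S S' E g hE
  refine ⟨S, E, b, hc, fun C => ?_⟩
  have hA := S'.all
  obtain ⟨t, ht⟩ := hA.gen g.q (-C.cl)
  have a1 : ∀ X, g.q.On X → X.ord t = C.cl X := fun X hX => by
    have := ht.2 X hX
    rw [Finsupp.neg_apply] at this
    omega
  have a2 : t ∈ g.q.ring := (hA.normal _ _).1 (Or.inr fun X hX => by
    rw [a1 X hX, Finsupp.zero_apply, add_zero]; exact cl_nonneg C X)
  have a3 : ∀ X : Crv S'.W, X.ord t⁻¹ = -X.ord t := fun X => by simpa using Pl.ord_zpow X.pl t (-1)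
  rw [hb _ t ht, (ho t a2 ht.1).2]
  refine ⟨fun h => ⟨a2, Or.inr fun o => ?_⟩, fun h => by_contra fun o => ?_⟩
  · have := Pl.ord_nonneg_of_mem C.pl (h _ o)
    change 0 ≤ C.ord _ at this
    rw [a3, a1 C h, cl_self] at this
    omega
  · refine h.2.resolve_left ht.1 ((hA.normal _ _).1 (Or.inr fun X hX => ?_))
    rw [a3, a1 X hX, cl_ne fun e : X = C => o (e ▸ hX)]
    simp

theorem cyl_min (pos : POS) (euc : EUC) (twig : TWIG) (comb : COMB) (adj : ADJC) (fork : FORK)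
    {D : Finset (Crv S.W)} (h : Mnl S D) : Cyl K (out S D) := by
  by_contra o
  refine (comb K S D h (fun C hC => by_contra fun e => o ?_) fun τ a b =>
    (twig K S D h τ a b).resolve_left o).elim (fun a => o (adj K S D h a)) (fork K S D h)
  have a1 := h.lg_cl hC
  have a2 : nbr D C = ∅ := Finset.card_eq_zero.1 (by omega)
  have a3 : {C} = D := by_contra fun e' => by
    obtain ⟨X, x1, Y, y1, y2, y3⟩ := h.conn {C} (by simpa) (by simp) e'
    obtain rfl := Finset.mem_singleton.1 x1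
    rw [inter_comm] at y3
    have := mem_nbr.2 ⟨y1, by simpa using y2, y3⟩
    simp [a2] at this
  obtain ⟨A, b1, -, b3⟩ := pos K S D h.perp
  rw [← a3] at b1
  rw [i_on b1, Finset.sum_singleton, i_on' b1, Finset.sum_singleton] at b3
  have b4 : 0 ≤ inter C.cl C.cl := by_contra fun e => by nlinarith [mul_self_nonneg (A C)]
  refine euc K S h.chi D C.cl C hC (h.toCls.ag hC).le (cl_nonneg C) (nef_of (cl_nonneg C) fun X hX => ?_)
    (by simp) (by simp) (Or.inr (by rw [cl_self]; omega))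
  obtain rfl : X = C := by_contra fun e => hX (cl_ne e)
  exact b4

theorem cyl_cls (cn : CN1) (step : STEP)
    (h : ∀ (S : Surf K) (D : Finset (Crv S.W)), Mnl S D → Cyl K (out S D)) (n : ℕ) :
    ∀ (S : Surf K) (D : Finset (Crv S.W)), Cls S D → Dep S n → Cyl K (out S D) := by
  induction n with
  | zero =>
    intro S D _ hd
    obtain ⟨c, hc, -⟩ := hd fun i => 0
    exact absurd (Subsingleton.elim _ _) hc
  | succ n ih =>
    intro S D hc hd
    by_cases o : ∀ E, IsExc S E → 0 < inter (lg S D) E.cl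
    · exact h S D ⟨hc, o⟩
    push Not at o
    obtain ⟨E, e1, e2⟩ := o
    obtain ⟨S', ⟨b⟩⟩ := cn K S E e1
    obtain ⟨⟨D', a1, a2⟩, a3⟩ := step K S S' E b D hc e2
    exact (ih S' D' a1 (a3 n hd)).mono a2

/-- A curve outside `D` has a point outside `D`. -/
theorem exists_pt_off {D : Finset (Crv S.W)} {C : Crv S.W} (h : C ∉ D) :
    ∃ x : Pt S.W, x.On C ∧ ∀ X ∈ D, ¬ x.On X := by
  have hA := S.all
  obtain ⟨i, hi⟩ := hA.crv_cover C
  obtain ⟨x, x1, x2⟩ := (hA.inf_pt C _ (S.x_mem i) hi).exists_notMem_finite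
    (D.finite_toSet.biUnion fun X hX => hA.fin_meet C X fun e => h (e ▸ hX))
  exact ⟨x, x1.1, fun X hX o => x2 (Set.mem_biUnion hX ⟨x1.1, o⟩)⟩

theorem out_of (pos : POS) (noh : NOH) {D : Finset (Crv S.W)} (h : Cls S D)
    (hc : Cyl K (out S D)) : Out S D := by
  obtain ⟨S', P, T, h1, h2, h3⟩ := hc
  obtain ⟨A, a1, a2, a3⟩ := pos K S D h.perp
  have key : ∀ C, P.Hor C → C ≠ T →
      ∃ x : Pt S.W, (∀ C' ∈ D, ¬ x.On C') ∧ ∀ f ∈ x.ring, f ∈ C.pl.ring := fun C b c => by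
    obtain ⟨X, x1, x2⟩ := h3 C b c
    obtain ⟨x, y1, y2⟩ := exists_pt_off x1
    exact ⟨x, y2, x2 ▸ y1⟩
  have hT : P.Hor T := by_contra fun o =>
    noh K S D A a1 a2 a3 S' P fun C hC => key C hC fun e => o (e ▸ hC)
  refine ⟨S', P, T, h1, hT, le_antisymm h2 ((penn cs penb K S' P).F_hor T hT), h3,
    fun x x1 x2 => noh K S D A a1 a2 a3 S' P fun C hC => ?_⟩
  by_cases e : C = T
  · exact ⟨x, x1, e ▸ x2⟩
  · exact key C hC e

theorem mmp_of (g1 : GEO1) (g2 : GEO2) (bd : BDOF) (pos : POS) (dep : DEP) (pen : PEN)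
    (euc : CN2 → PEN → EUC) (noh : NOH) (step : STEP) (twig : EUC → TWIG) (comb : COMB)
    (adj : POS → EUC → ADJC) (fork : FORK) : MMP := fun K _ _ S D h =>
  have e := euc (cn2_of g2 bd) pen
  out_of pos noh h (cyl_cls (cn1_of g1 bd) step
    (fun _ _ => cyl_min pos e (twig e) comb (adj pos e) fork) _ S D h (dep K S D h.perp))

end Vale.Agent.P297Z.Sf.Mp
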