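import Vale.Agent.P253Y.G.Defs
import Vale.Agent.P297Y.Alg.Cs

/-! P253, surfaces, block G: the numerical properties of a contraction. -/

set_option linter.all false

namespace Vale.Agent.P297Z.Sf.Mp

open Vale.Agent.P019P (dg)

variable {K : Type} [Field K] [Algebra ℂ K] {S S' : Surf K} {E : Crv S.W}

namespace Bdo

theorem inter_of_pl {p : Pt S.W → Pt S'.W} (hp : Dominates p) {X : Div S.W} {A : Div S'.W}
    (H : ∀ y t, GenAt (p y) (-A) t → GenAt y (-X) t) (C : Crv S.W) (C' : Crv S'.W)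
    (e : C.pl = C'.pl) (h1 : X C = 0) (h2 : A C' = 0) : inter X C.cl = inter A C'.cl := by
  obtain ⟨v, h⟩ := C
  obtain ⟨v', h'⟩ := C'
  obtain rfl : v = v' := e
  have key : ∀ w, S'.pt ⟨v, h'⟩ w = p (S.pt ⟨v, h⟩ w) := fun w =>
    ((cs K S').pt_iff _ w _).2 fun f hf => ((cs K S).pt_iff ⟨v, h⟩ w _).1 rfl f ((hp _).1 hf)
  rw [← (cs K S).dg_rst _ _ h1, ← (cs K S').dg_rst _ _ h2]
  refine congrArg dg (Finsupp.ext fun w => ?_)
  have h3 := S'.eqn_spec (S'.pt ⟨v, h'⟩ w) A
  exact ((cs K S).rst_apply _ _ h1 w _ (H _ _ (key w ▸ h3))).trans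
    ((cs K S').rst_apply _ _ h2 w _ h3).symm

variable (g : Geo S S' E)

theorem inj : Function.Injective g.ι := fun C C' e =>
  Crv.ext ((g.pl C).symm.trans (e ▸ g.pl C'))

theorem ord_ι (C : Crv S'.W) (f : K) : (g.ι C).ord f = C.ord f := by
  unfold Crv.ord; rw [g.pl]

theorem on_p {y : Pt S.W} {C : Crv S'.W} (h : y.On (g.ι C)) : (g.p y).On C := fun f hf =>
  g.pl C ▸ h f ((g.dom y).1 hf)

theorem cases {P : Crv S.W → Prop} (h1 : P E) (h2 : ∀ C, P (g.ι C)) (C : Crv S.W) : P C := by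
  by_cases e : C = E
  · rwa [e]
  · obtain ⟨C', rfl⟩ := g.all C e
    exact h2 C'

theorem cl_ι (C : Crv S'.W) : E.cl (g.ι C) = 0 := Finsupp.single_eq_of_ne (g.ne C)

/-- The strict transform. -/
noncomputable def up : Div S'.W →+ Div S.W := Finsupp.mapDomain.addMonoidHom g.ι

theorem up_ι (A : Div S'.W) (C : Crv S'.W) : up g A (g.ι C) = A C :=
  Finsupp.mapDomain_apply (inj g) A C

theorem up_E (A : Div S'.W) : up g A E = 0 :=
  Finsupp.mapDomain_notin_range A E fun ⟨C, h⟩ => g.ne C h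

/-- The pull back. -/
noncomputable def pb : Div S'.W →+ Div S.W :=
  AddMonoidHom.mk' (fun A => up g A + S.B (up g A) E.cl • E.cl) fun A B => by
    simp only [map_add, AddMonoidHom.add_apply, add_smul]
    abel

theorem pb_apply (A : Div S'.W) : pb g A = up g A + S.B (up g A) E.cl • E.cl := rfl

theorem pb_ι (A : Div S'.W) (C : Crv S'.W) : pb g A (g.ι C) = A C := by
  rw [pb_apply, Finsupp.add_apply, Finsupp.smul_apply, up_ι, cl_ι, smul_zero, add_zero]

theorem pb_at (A : Div S'.W) : pb g A E = inter (up g A) E.cl := by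
  rw [pb_apply, Finsupp.add_apply, Finsupp.smul_apply, up_E, Finsupp.single_eq_same, zero_add,
    smul_eq_mul, mul_one, S.B_apply]

variable (hE : IsExc S E)
include hE

theorem pb_E (A : Div S'.W) : inter (pb g A) E.cl = 0 := by
  rw [pb_apply, ← S.B_apply, map_add, map_zsmul, AddMonoidHom.add_apply, AddMonoidHom.zsmul_apply,
    S.B_apply E.cl, hE.1, smul_eq_mul]
  ring

theorem eq_pb {X : Div S.W} {A : Div S'.W} (h1 : ∀ C, X (g.ι C) = A C) (h2 : inter X E.cl = 0) :
    X = pb g A := by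
  have e : X - pb g A = (X - pb g A) E • E.cl := Finsupp.ext (cases g (by simp) fun C => by
    rw [Finsupp.sub_apply, Finsupp.smul_apply, h1, pb_ι, cl_ι, sub_self, smul_zero])
  have h3 : S.B (X - pb g A) E.cl = 0 := by
    rw [map_sub, AddMonoidHom.sub_apply, S.B_apply, S.B_apply, h2, pb_E g hE, sub_zero]
  rw [e, map_zsmul, AddMonoidHom.zsmul_apply, S.B_apply, hE.1, smul_eq_mul] at h3
  rw [← sub_eq_zero, e, show (X - pb g A) E = 0 by omega, zero_smul]

theorem pb_div {f : K} (f0 : f ≠ 0) : pb g (div S'.W f) = div S.W f := by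
  refine (eq_pb g hE (fun C => ?_) ?_).symm
  · rw [div_apply S.all.toLoc2, div_apply S'.all.toLoc2, ord_ι]
  · rw [← zero_add (div S.W f), inter_lin S.all.toRR _ _ f0, ← S.B_apply, map_zero]
    rfl

omit hE in
theorem pb_nonneg {A : Div S'.W} (h : 0 ≤ A) : 0 ≤ pb g A := by
  refine cases g ?_ fun C => (h C).trans_eq (pb_ι g A C).symm
  rw [pb_at, inter_comm]
  exact inter_nonneg S.all.inte (Finsupp.single_nonneg.2 zero_le_one)
    (cases g (up_E g A).ge fun C => (h C).trans_eq (up_ι g A C).symm) (Rul.single_or (up_E g A))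

theorem H0_pb (A : Div S'.W) : H0 (pb g A) = H0 A := by
  ext f
  refine or_congr_right' fun f0 => ⟨fun h C _ => ?_, fun h C _ => ?_⟩
  · rw [← ord_ι g, ← pb_ι g]
    exact h _ trivial
  · have h1 := pb_nonneg g (eff_of_mem S'.all.toLoc2 (Or.inr h) f0) C
    rwa [map_add, pb_div g hE f0, Finsupp.add_apply, div_apply S.all.toLoc2, add_comm] at h1

theorem pb_ord {A : Div S'.W} {t : K} (h : GenAt g.q (-A) t) : pb g A E = E.ord t := by
  have h1 : pb g (A - div S'.W t) E = 0 := by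
    rw [pb_at, ← (cs K S).dg_rst _ _ (up_E g _), ← map_zero dg]
    refine congrArg dg (Finsupp.ext fun w => ?_)
    have h2 : ∀ C, (S.pt E w).On C → up g (A - div S'.W t) C = 0 :=
      cases g (fun _ => up_E g _) fun C hC => by
        have h3 := h.2 C (g.ctr _ (((cs K S).on_iff _ _).2 ⟨w, rfl⟩) ▸ on_p g hC)
        rw [Finsupp.neg_apply] at h3
        rw [up_ι, Finsupp.sub_apply, div_apply S'.all.toLoc2]
        omega
    exact ((cs K S).rst_nonneg _ _ (up_E g _) w fun C hC => (h2 C hC).ge).2.2 h2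
  rwa [map_sub, pb_div g hE h.1, Finsupp.sub_apply, div_apply S.all.toLoc2, sub_eq_zero] at h1

theorem proj (A : Div S'.W) (C : Crv S'.W) : inter (pb g A) (g.ι C).cl = inter A C.cl := by
  obtain ⟨f, f0, hf⟩ := S'.all.move {C} fun _ => - A C
  have h1 : (A + div S'.W f) C = 0 := by
    rw [Finsupp.add_apply, div_apply S'.all.toLoc2, hf C (Finset.mem_singleton_self C),
      add_neg_cancel]
  rw [← inter_lin S.all.toRR _ _ f0, ← inter_lin S'.all.toRR A _ f0, ← pb_div g hE f0, ← map_add]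
  refine inter_of_pl g.dom (fun y t ht => ⟨ht.1, cases g (fun hy => ?_) fun C' hC => ?_⟩) _ _
    (g.pl C) ((pb_ι g _ C).trans h1) h1
  · rw [Finsupp.neg_apply, pb_ord g hE (g.ctr y hy ▸ ht), add_neg_cancel]
  · rw [Finsupp.neg_apply, pb_ι, ord_ι]
    exact ht.2 C' (on_p g hC)

theorem inter_pb (A B : Div S'.W) : inter (pb g A) (pb g B) = inter A B := by
  have h1 : (S.B (pb g A)).comp (up g) = S'.B A := Finsupp.addHom_ext fun C n => by
    have e : Finsupp.single C n = n • C.cl := by simp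
    have e' : up g C.cl = (g.ι C).cl := Finsupp.mapDomain_single
    rw [e, map_zsmul, map_zsmul, AddMonoidHom.comp_apply, e', S.B_apply, S'.B_apply, proj g hE]
  rw [pb_apply g B, ← S.B_apply, map_add, map_zsmul, S.B_apply _ E.cl, S.B_apply _ E.cl,
    pb_E g hE, smul_zero, add_zero]
  exact DFunLike.congr_fun h1 B

theorem kap : ∃ c : K, c ≠ 0 ∧ S.kap + div S.W c = pb g S'.kap + E.cl := by
  have hA := S.all
  obtain ⟨c, c0, hc⟩ := hA.change _ _ _ _ S.indep S'.indep
  refine ⟨c, c0, sub_eq_iff_eq_add.1 (eq_pb g hE (fun C => ?_) ?_)⟩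
  · have a1 := SB.isLeast_shift c0 hc (hA.least _ _ S.indep (g.ι C))
    have a2 := S'.all.least _ _ S'.indep C
    rw [← g.pl C] at a2
    rw [Finsupp.sub_apply, Finsupp.add_apply, div_apply hA.toLoc2, cl_ι, sub_zero]
    exact a1.unique a2
  · rw [← S.B_apply, map_sub, AddMonoidHom.sub_apply, S.B_apply, S.B_apply,
      inter_lin hA.toRR _ _ c0, hE.1, hE.2, sub_self]

include g in
theorem chi_le : chi (0 : Div S.W) ≤ chi (0 : Div S'.W) := by
  obtain ⟨c, c0, hc⟩ := kap g hE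
  have h1 : ∀ X, inter S.kap (pb g X) = inter S'.kap X := fun X => by
    rw [← inter_lin S.all.toRR _ _ c0, hc, S.all.add, inter_pb g hE, inter_comm E.cl, pb_E g hE,
      add_zero]
  obtain ⟨m₀, hm⟩ := S'.all.large 0
  obtain ⟨m, m1, m2⟩ : ∃ m : ℤ, m₀ ≤ m ∧ |inter S'.kap S'.H| < m :=
    ⟨max m₀ (|inter S'.kap S'.H| + 1), le_max_left _ _, lt_max_of_lt_right (lt_add_one _)⟩
  have h2 := hm m m1
  rw [zero_add] at h2
  have h3 : H0 (S.kap - pb g (m • S'.H)) = ⊥ := by
    refine Rul.bot_of_neg S.all (D := pb g S'.H) (cases g (pb_E g hE _).ge fun C =>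
      (S'.all.crv C).le.trans_eq (proj g hE _ C).symm) ?_
    rw [← S.B_apply, map_sub, S.B_apply, S.B_apply, inter_comm, h1, inter_pb g hE,
      ← S'.B_apply _ (_ • _), map_zsmul, S'.B_apply, smul_eq_mul]
    nlinarith [S'.all.sq, le_abs_self (inter S'.kap S'.H), abs_nonneg (inter S'.kap S'.H)]
  have h4 := S.all.le (pb g (m • S'.H))
  have h5 := S.all.rr (pb g (m • S'.H))
  have h6 := S'.all.rr (m • S'.H)
  rw [h0, h0, h3, H0_pb g hE, finrank_bot, ← h0, h2] at h4
  rw [h1, inter_pb g hE] at h5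
  omega

end Bdo

open Bdo in
theorem bdof : BDOF := by
  intro K _ _ S S' E g hE
  obtain ⟨c, c0, hc⟩ := kap g hE
  exact ⟨⟨g.ι, pb g, c, g.pl, g.ne, g.all, pb_ι g, inter_pb g hE, pb_E g hE, hE, c0, hc,
    H0_pb g hE, chi_le g hE⟩, fun A t h => pb_ord g hE h⟩

end Vale.Agent.P297Z.Sf.Mp
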