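import Vale.Agent.P253Y.G.Defs
import Vale.Agent.P297Y.Ctr.Model

/-! P253, surfaces, block G: contraction and blowing up, geometric form. -/

set_option linter.all false

open IsLocalRing

namespace Vale.Agent.P297Z.Sf.Mp

variable {K : Type} [Field K] [Algebra ℂ K]

namespace Ge

/-- The centre of a place which is not the place of a curve is the point below it. -/
theorem ctr_eq {S : Surf K} {W : Submodule ℂ K} {E : Crv W} (hE : ∀ C : Crv S.W, C.pl ≠ E.pl)
    {w : K} (hw : w ∈ S.W) {z : Pt S.W} (hz : z.In w) (h : z.ring ≤ E.alg) :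
    z.ring = loc _ (ctr (hz.chart_le.trans h)) (ctr_isPrime _) := by
  have hA := S.all
  obtain ⟨m, hm, e, -⟩ := hA.pt_chart z w hw hz
  have h1 : (ctr (hz.chart_le.trans h)).IsMaximal := by
    by_contra hc
    by_cases h0 : ctr (hz.chart_le.trans h) = ⊥
    · have := S.model.frac w hw hz.1
      refine Pl.ring_ne_top E.pl (eq_top_iff.2 fun f _ => ?_)
      obtain ⟨a, b, hb, rfl⟩ := IsFractionRing.div_surjective (A := chart S.W w) f
      have h2 : b ∉ ctr (hz.chart_le.trans h) := by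
        rw [h0]
        exact nonZeroDivisors.ne_zero hb
      exact loc_ctr_le (hz.chart_le.trans h)
        ⟨a, b, h2, div_mul_cancel₀ _ (ne_zero_of_notMem h2)⟩
    · obtain ⟨C, hC⟩ := hA.crv_of_prime w hw hz.1 _ (ctr_isPrime _) h0 hc
      exact hE C (Pl.eq_of_le' fun f hf => loc_ctr_le (hz.chart_le.trans h) ((hC f).1 hf))
  refine e.trans (loc_congr _ _ (h1.eq_of_le hm.ne_top fun a ha => ?_).symm)
  by_contra hc
  exact ((mem_ctr _ _).1 ha).elim (ne_zero_of_notMem hc) fun h2 =>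
    h2 (h (e.ge (inv_mem_loc _ hc)))

/-- There is at most one point below such a place. -/
theorem pt_eq {S : Surf K} {W : Submodule ℂ K} {E : Crv W} (hE : ∀ C : Crv S.W, C.pl ≠ E.pl)
    {z z' : Pt S.W} (h : z.ring ≤ E.alg) (h' : z'.ring ≤ E.alg) : z = z' := by
  classical
  obtain ⟨w, hw, -, h1, -⟩ := S.all.avoid {z, z'} ∅
  exact Pt.ext ((ctr_eq hE hw (h1 z (by simp)) h).trans (ctr_eq hE hw (h1 z' (by simp)) h').symm)

end Ge

theorem geo1 : GEO1 := by
  intro K _ _ S E hE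
  obtain ⟨S', ⟨c⟩⟩ := Ct.contr K S S.all E hE
  obtain ⟨w, hw, h1⟩ := E.exists_in
  obtain ⟨x₀, h2, -⟩ := (S.all.inf_pt E w hw h1).nonempty
  exact ⟨S', ⟨⟨c.ι, c.pl, c.ne, c.all, c.p, c.dom, c.p x₀, fun x hx =>
    Ge.pt_eq (E := E) (fun C e => c.ne C (Crv.ext ((c.pl C).trans e)))
      (fun f hf => hx f ((c.dom x).1 hf)) fun f hf => h2 f ((c.dom x₀).1 hf)⟩⟩⟩

theorem geo2 : GEO2 := by
  intro K _ _ S x
  have h := S.all
  obtain ⟨S', e⟩ := Sf.nn K (bl x) (bl1 Sf.model K S h.toLoc h.toReg2 x)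
  obtain ⟨E, ι, hB⟩ := bl2 K S h.toLoc h.toReg2 x
  obtain ⟨π, -, hd⟩ := bl3 K S h.toLoc h.toReg2 x
  have hF := bl4 K S h x S' e S'.all E ι hB
  have hR := S'.all.rr
  refine ⟨S', ?_⟩
  obtain ⟨W', h1, y, h2, h3, h4, h5⟩ := S'
  dsimp only at e
  subst e
  have g1 : GenAt x (0 : Div S.W) 1 := ⟨one_ne_zero, fun C _ => by simp⟩
  have e0 : ∀ C, (Finsupp.single E (1 : ℤ)) (ι C) = 0 := fun C =>
    Finsupp.single_eq_of_ne (hB.ne C)
  have f1 := hF 0 0 1 (fun C => rfl) g1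
  have f2 := hF (Finsupp.single E 1) 0 1 e0 g1
  have f3 := hF (Finsupp.single E 1 + Finsupp.single E 1) 0 1
    (fun C => by rw [Finsupp.add_apply, e0]; rfl) g1
  have f4 := hR (Finsupp.single E 1)
  simp only [Finsupp.coe_zero, Pi.zero_apply, Pl.ord_one, Finsupp.single_eq_same,
    Finsupp.add_apply] at f1 f2 f3
  have f5 : inter (Finsupp.single E 1) (Finsupp.single E 1) = -1 := by
    unfold inter
    omega
  refine ⟨E, ⟨ι, hB.pl, hB.ne, fun C hC => (hB.all C).resolve_left hC, π, hd, x, fun z hz =>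
    Ge.pt_eq (E := E) (fun C e => hB.ne C (Crv.ext ((hB.pl C).trans e)))
      (fun f hf => hz f ((hd z).1 hf)) hB.dom⟩, rfl, ⟨f5, ?_⟩, ?_, fun f hf f0 =>
    ⟨Pl.ord_nonneg_of_mem _ (hB.dom f hf), ?_⟩⟩
  · dsimp only at f4 ⊢
    omega
  · dsimp only
    omega
  · have h6 := hB.ord ⟨f, hf⟩ 1 fun h => f0 (congrArg Subtype.val h)
    rw [pow_one, Pt.mem_max] at h6
    exact h6

end Vale.Agent.P297Z.Sf.Mp
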