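import Vale.Agent.P253Y.G.Basic

/-! P253, surfaces, block G: the adjoint curve. -/

set_option linter.all false

namespace Vale.Agent.P297Z.Sf.Mp

variable {K : Type} [Field K] [Algebra ℂ K] {S : Surf K} {D : Finset (Crv S.W)}

namespace AdjA

theorem comp {P Z : Div S.W} (hZ : 0 ≤ Z) (h : ∀ C, Z C ≠ 0 → 0 ≤ inter P C.cl) :
    0 ≤ inter P Z := by
  rw [i_on' (on_support Z)]
  exact Finset.sum_nonneg fun C hC => mul_nonneg (hZ C) (h C (Finsupp.mem_support_iff.1 hC))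

theorem sq_le (h : Cls S D) {m : ℤ} {G A : Div S.W} (hm : 0 < m) (hG : 0 ≤ G) (hA : 0 ≤ A)
    (h1 : 0 < inter A A) (h2 : 0 ≤ inter (m • lg S D - G) A) :
    inter (m • lg S D - G) (m • lg S D - G) ≤ 0 := by
  by_contra hc
  rw [not_le] at hc
  rcases lt_trichotomy 0 (inter S.H (m • lg S D - G)) with e | e | e
  · obtain ⟨n, hn, h3⟩ := Hd.eff_nsmul S.all hc e
    refine h3 (eq_bot_mono (H0_mono ?_) (h.bot_zsmul (mul_pos hn hm)))
    rw [smul_sub, mul_smul]
    exact sub_le_self _ (zsmul_nonneg hG hn.le)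
  · exact hc.not_ge (Hd.hodge S.all _ e.symm)
  generalize m • lg S D - G = P at *
  have h3 : 0 ≤ inter S.H A := Rul.nef_eff S.all (Hd.nef_H S.all) hA
  have h4 := Hd.hodge S.all (inter S.H A • P - inter S.H P • A)
    (by simp only [i_sub', i_smul']; ring)
  simp only [i_sub, i_sub', i_smul, i_smul', inter_comm A P] at h4
  nlinarith [mul_nonneg (mul_nonneg h3 h3) hc.le, mul_pos (mul_pos_of_neg_of_neg e e) h1,
    mul_nonneg (mul_nonneg h3 (neg_pos.2 e).le) h2]

/-- The adjoint curve. -/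
theorem crv (h : Cls S D) {P X : Div S.W} (hX : 0 ≤ X) (h1 : inter P X < 0)
    (h2 : inter P (lg S D) ≤ 0) : ∃ C : Crv S.W, inter P C.cl < 0 ∧ H0 (lg S D + C.cl) = ⊥ := by
  obtain ⟨n₀, hn⟩ := h.nb X
  obtain ⟨n, h3, h4⟩ := Nat.exists_not_and_succ_of_not_zero_of_exists
    (p := fun n => H0 (X + n • lg S D) = ⊥) (fun e => one_ne_zero ((Submodule.eq_bot_iff _).1 e 1
      (Or.inr fun C _ => by simpa using hX C))) ⟨n₀, hn n₀ le_rfl⟩
  obtain ⟨f, hf, f0⟩ := (Submodule.ne_bot_iff _).1 h3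
  have h5 := eff_of_mem S.all.toLoc2 hf f0
  have h6 : inter P (X + n • lg S D + div S.W f) < 0 := by
    rw [i_add', i_div' f0, i_add', i_nsmul']
    linarith [mul_nonpos_of_nonneg_of_nonpos (n.cast_nonneg (α := ℤ)) h2]
  obtain ⟨C, h7, h8⟩ : ∃ C, (X + n • lg S D + div S.W f) C ≠ 0 ∧ inter P C.cl < 0 := by
    by_contra hc
    exact h6.not_ge (comp h5 fun C hC => not_lt.1 fun e => hc ⟨C, hC, e⟩)
  refine ⟨C, h8, eq_bot_mono (H0_mono ?_) (H0_div f0 h4)⟩
  rw [succ_nsmul, ← add_assoc, add_right_comm, add_comm]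
  refine add_le_add_left (fun R => ?_) _
  by_cases e : R = C
  · rw [e, cl_self]
    exact (h5 C).lt_of_ne' h7
  · rw [cl_ne e]
    exact h5 R

end AdjA

open AdjA in
theorem adjc (h1 : POS) (h2 : EUC) : ADJC := by
  classical
  intro K _ _ S D h ⟨m, G, hm, g0, g1, hP, hPG⟩
  obtain ⟨A, a1, a2, a3⟩ := h1 K S D h.perp
  have hD : D.Nonempty := Finset.nonempty_iff_ne_empty.2 fun e => by
    rw [show A = 0 from Finsupp.ext fun C => a1 C (by simp [e]), i_zero] at a3
    exact lt_irrefl _ a3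
  have p1 := sq_le h.toCls hm g0 a2 a3 (comp a2 fun C hC => hP C (by_contra fun e => hC (a1 C e)))
  rw [i_sub', i_smul', hPG, sub_zero] at p1
  obtain ⟨X, hX⟩ := not_forall.1 (h.toCls.ne hm g0)
  obtain ⟨C, c1, c2⟩ := crv h.toCls (cl_nonneg X) (not_le.1 hX) (nonpos_of_mul_nonpos_right p1 hm)
  have c3 : C ∉ D := fun e => c1.not_ge (hP C e)
  have e1 := t0 h.chi (cl_nonneg C) (cl_ne_zero C) (eq_bot_mono (H0_mono (add_le_add_left
    (le_add_of_nonneg_right (rd_nonneg D)) _)) c2)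
  have e2 := ag_ge C
  have e3 := t0 h.chi (add_nonneg (rd_nonneg D) (cl_nonneg C))
    (add_pos_of_nonneg_of_pos (rd_nonneg D) ((cl_nonneg C).lt_of_ne' (cl_ne_zero C))).ne'
    (by rw [← add_assoc]; exact c2)
  have e4 := h.conn.tree hD
  have e5 := i_eff (sub_nonneg.2 g1) (C := C) (le_antisymm (by
    rw [Finsupp.sub_apply, Finsupp.smul_apply, rd_on D C c3, smul_zero, zero_sub]
    exact neg_nonpos.2 (g0 C)) (sub_nonneg.2 g1 C))
  have e6 := i_eff (rd_nonneg D) (rd_on D C c3)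
  have e7 : inter (lg S (insert C D)) C.cl =
      inter S.kap C.cl + inter (rd D) C.cl + inter C.cl C.cl := by
    rw [lg_insert c3, lg, i_add, i_add]
  have e8 := h.min C
  have e9 : S.ag C.cl = inter C.cl C.cl + inter S.kap C.cl := rfl
  rw [ag_add] at e3
  simp only [lg, i_add, i_sub, i_smul] at c1 e5 e8
  have k1 : inter S.kap C.cl < 0 := neg_of_mul_neg_left (b := m) (by linarith) hm.le
  have k2 : 0 ≤ inter C.cl C.cl := by_contra fun e => by
    have := e8 ⟨show inter C.cl C.cl = -1 by omega, show inter S.kap C.cl = -1 by omega⟩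
    omega
  refine (h2 K S h.chi (insert C D) C.cl C (Finset.mem_insert_self _ _) e1 (cl_nonneg C)
    (fun R => ?_) (by simp) (by simp) ?_).mono ?_
  · by_cases e : R = C
    · exact e ▸ k2
    · exact i_cl (Ne.symm e)
  · rw [cl_self]
    by_cases e : inter (rd D) C.cl = 0
    · exact Or.inr (by omega)
    have k4 : ∀ R ∈ D, R ≠ C := fun R hR e => c3 (e ▸ hR)
    obtain ⟨R, r1, r2⟩ := Finset.exists_ne_zero_of_sum_ne_zero (i_rd D C.cl ▸ e)
    have r3 := Finset.single_le_sum (fun R hR => i_cl (k4 R hR)) r1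
    have r4 := i_cl (k4 R r1)
    have r5 : inter C.cl R.cl = 1 := by
      rw [← i_rd] at r3
      rw [inter_comm]
      omega
    exact Or.inl ⟨R, Finset.mem_insert_of_mem r1, r5, cl_ne (k4 R r1), r5, by omega⟩
  · rintro _ ⟨R, r1, rfl⟩
    exact ⟨R, fun e => r1 (Finset.mem_insert_of_mem e), rfl⟩

end Vale.Agent.P297Z.Sf.Mp
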