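import Vale.Agent.P253Y.G.Defs

/-! P253, surfaces, block G: the arithmetic of the forks. -/

namespace Vale.Agent.P297Z.Sf.Mp

namespace Ari

theorem one_of {x y k : ℤ} (hk : 0 < k) (hx : 0 < k * x) (h : k ^ 2 = k * x * (k * y)) : x = 1 := by
  have h1 : x * y = 1 := mul_left_cancel₀ (pow_pos hk 2).ne' (by linarith)
  exact Int.eq_one_of_mul_eq_one_right ((mul_pos_iff_of_pos_left hk).1 hx).le h1

theorem ari3 {a b c qa qb qc ta tb tc s n : ℤ} (hab : a ≤ b) (hbc : b ≤ c)
    (ha : 1 ≤ qa ∧ qa < a) (hb : 1 ≤ qb ∧ qb < b) (hc : 1 ≤ qc ∧ qc < c) (h1 : qa = 1 → ta = 1)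
    (h2 : qb = 1 → tb = 1) (h3 : a * b * c < b * c + a * c + a * b)
    (h4 : 0 < a * b * c * s + (b * c * qa + a * c * qb + a * b * qc))
    (h5 : (b * c + a * c + a * b - a * b * c) ^ 2 =
      (a * b * c * s + (b * c * qa + a * c * qb + a * b * qc)) *
      (a * b * c * n + (b * c * ta + a * c * tb + a * b * tc))) :
    s = -1 ∧ qa = 1 ∧ qb = 1 ∧ qc = 1 := by
  obtain rfl : a = 2 := by
    by_contra h
    have h6 : 3 ≤ a := by omega
    nlinarith [mul_le_mul_of_nonneg_right h6 (mul_nonneg (by omega : 0 ≤ b) (by omega : 0 ≤ c)),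
      mul_le_mul_of_nonneg_right hab (by omega : 0 ≤ c),
      mul_le_mul_of_nonneg_right (hab.trans hbc) (by omega : 0 ≤ b)]
  obtain rfl : qa = 1 := by omega
  obtain rfl := h1 rfl
  have h6 : b = 2 ∨ b = 3 := by
    have : b < 4 := by
      by_contra h
      nlinarith
    omega
  rcases h6 with rfl | rfl
  · obtain rfl : qb = 1 := by omega
    obtain rfl := h2 rfl
    have e := one_of (k := 4) (x := c * (s + 1) + qc) (y := c * (n + 1) + tc) (by norm_num)
      (by linarith) (by linarith)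
    have : s + 1 = 0 := by
      by_contra h
      rcases lt_or_gt_of_ne h with h | h <;> nlinarith
    rw [this] at e
    omega
  · have h7 : c = 3 ∨ c = 4 ∨ c = 5 := by omega
    rcases h7 with rfl | rfl | rfl
    · have e := one_of (k := 3) (x := 6 * s + 3 + 2 * qb + 2 * qc)
        (y := 6 * n + 3 + 2 * tb + 2 * tc) (by norm_num) (by linarith) (by linarith)
      omega
    · have e := one_of (k := 2) (x := 12 * s + 6 + 4 * qb + 3 * qc)
        (y := 12 * n + 6 + 4 * tb + 3 * tc) (by norm_num) (by linarith) (by linarith)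
      omega
    · have e := one_of (k := 1) (x := 30 * s + 15 + 10 * qb + 6 * qc)
        (y := 30 * n + 15 + 10 * tb + 6 * tc) (by norm_num) (by linarith) (by linarith)
      omega

end Ari

open Ari

theorem ari : ARI := by
  intro d q t s n h1 h2 h3 h4 h5
  rw [Fin.forall_fin_succ, Fin.forall_fin_two]
  change s = -1 ∧ q 0 = 1 ∧ q 1 = 1 ∧ q 2 = 1
  rcases le_total (d 0) (d 1) with a | a <;> rcases le_total (d 1) (d 2) with b | b <;>
    rcases le_total (d 0) (d 2) with c | c
  · exact ari3 a b (h1 0) (h1 1) (h1 2) (h2 0) (h2 1) h3 h4 h5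
  · exact ari3 a b (h1 0) (h1 1) (h1 2) (h2 0) (h2 1) h3 h4 h5
  · have := ari3 (tc := t 1) (s := s) (n := n) c b (h1 0) (h1 2) (h1 1) (h2 0) (h2 2)
      (by linarith) (by linarith) (by linarith)
    tauto
  · have := ari3 (tc := t 1) (s := s) (n := n) c a (h1 2) (h1 0) (h1 1) (h2 2) (h2 0)
      (by linarith) (by linarith) (by linarith)
    tauto
  · have := ari3 (tc := t 2) (s := s) (n := n) a c (h1 1) (h1 0) (h1 2) (h2 1) (h2 0)
      (by linarith) (by linarith) (by linarith)
    tauto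
  · have := ari3 (tc := t 0) (s := s) (n := n) b c (h1 1) (h1 2) (h1 0) (h2 1) (h2 2)
      (by linarith) (by linarith) (by linarith)
    tauto
  · have := ari3 (tc := t 0) (s := s) (n := n) b a (h1 2) (h1 1) (h1 0) (h2 2) (h2 1)
      (by linarith) (by linarith) (by linarith)
    tauto
  · have := ari3 (tc := t 0) (s := s) (n := n) b a (h1 2) (h1 1) (h1 0) (h2 2) (h2 1)
      (by linarith) (by linarith) (by linarith)
    tauto

end Vale.Agent.P297Z.Sf.Mp
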