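import Vale.Agent.P253Y.G.Defs
import Vale.Agent.P297Y.Alg.Kill
import Vale.Agent.P297Y.Alg.Cs

/-! P253, block G: the combinatorics of the boundary. -/

set_option linter.all false

namespace Vale.Agent.P297Z.Sf.Mp

open Classical

variable {K : Type} [Field K] [Algebra ℂ K] {S : Surf K} {D : Finset (Crv S.W)}

namespace Cb

theorem crv_nonneg {C C' : Crv S.W} (h : C ≠ C') : 0 ≤ inter C.cl C'.cl :=
  inter_nonneg S.all.inte (Finsupp.single_nonneg.2 zero_le_one)
    (Finsupp.single_nonneg.2 zero_le_one) fun X => by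
      by_cases e : X = C
      · exact Or.inr (Finsupp.single_eq_of_ne (e ▸ h))
      · exact Or.inl (Finsupp.single_eq_of_ne e)

theorem rd_apply (D : Finset (Crv S.W)) (C : Crv S.W) : rd D C = if C ∈ D then 1 else 0 := by
  rw [rd, Finsupp.finset_sum_apply]
  simp only [Finsupp.single_apply, Finset.sum_ite_eq']

theorem on_inter {A : Div S.W} {T : Finset (Crv S.W)} (h : On A T) (X : Div S.W) :
    inter A X = ∑ C ∈ T, A C * inter C.cl X := by
  have e : A = ∑ C ∈ T, A C • C.cl := by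
    ext C
    rw [Finsupp.finset_sum_apply]
    simp only [Finsupp.smul_apply, Finsupp.single_apply, smul_eq_mul, mul_ite, mul_one, mul_zero,
      Finset.sum_ite_eq']
    split_ifs with hC
    exacts [rfl, h C hC]
  conv_lhs => rw [e, ← S.B_apply, map_sum, AddMonoidHom.finset_sum_apply]
  simp only [map_zsmul, AddMonoidHom.smul_apply, S.B_apply, smul_eq_mul]

theorem inj3 {α : Type} {x y z : α} (h1 : x ≠ y) (h2 : x ≠ z) (h3 : y ≠ z) :
    Function.Injective ![x, y, z] := by
  intro k k' e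
  fin_cases k <;> fin_cases k' <;> simp_all

/-- the number of neighbours -/
theorem nbrs {C : Crv S.W} (hC : C ∈ D) :
    ∑ C' ∈ D.erase C, inter C'.cl C.cl ≤ inter (lg S D) C.cl + 2 := by
  have h1 := gle cs K S C
  have h2 : inter (lg S D) C.cl = inter S.kap C.cl + ∑ C' ∈ D, inter C'.cl C.cl := by
    rw [lg, S.all.add, rd, ← S.B_apply (∑ C ∈ D, C.cl), map_sum, AddMonoidHom.finset_sum_apply]
    rfl
  rw [h2, ← Finset.add_sum_erase D _ hC]
  rw [Surf.ag] at h1
  omega

theorem l_le {τ : Crv S.W} (t : Tw S D τ) {C : Crv S.W} (hC : C ∈ t.T) :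
    inter (lg S D) C.cl ≤ 0 := by
  by_cases e : C = τ
  · rw [e, t.l_tip]; omega
  · exact (t.l_zero C hC e).le

theorem far {τ : Crv S.W} (t : Tw S D τ) {C C' : Crv S.W} (hC : C ∈ t.T) (hD : C' ∈ D)
    (h1 : C' ∉ t.T) (h2 : C' ≠ t.b) : inter C.cl C'.cl = 0 :=
  (t.nb C hC C' hD h1).resolve_left fun h => h2 h.2

theorem disj {τ τ' : Crv S.W} (t : Tw S D τ) (t' : Tw S D τ') (hb : 1 ≤ inter (lg S D) t.b.cl)
    (hn : τ ≠ τ') : Disjoint t.T t'.T := by
  rw [Finset.disjoint_iff_inter_eq_empty]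
  by_contra h
  by_cases e : t.T ∩ t'.T = t'.T
  · have h1 := t.l_zero τ' (Finset.mem_inter.1 (e.symm ▸ t'.τ_mem)).1 hn.symm
    have h2 := t'.l_tip
    omega
  obtain ⟨C, h1, C', h2, h3, h4⟩ := t'.conn _ Finset.inter_subset_right
    (Finset.nonempty_iff_ne_empty.2 h) e
  refine h4.ne' (far t (Finset.mem_inter.1 h1).1 (t'.sub h2)
    (fun o => h3 (Finset.mem_inter.2 ⟨o, h2⟩)) fun o => ?_)
  have := l_le t' (o ▸ h2)
  omega

/-- the dual of the tip against a curve off the twig -/
theorem Z_off {τ : Crv S.W} (t : Tw S D τ) {C : Crv S.W} (hD : C ∈ D) (h : C ∉ t.T) :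
    inter t.Z C.cl = if t.b = C then 1 else 0 := by
  rw [on_inter t.Z_on]
  split_ifs with e
  · rw [Finset.sum_eq_single_of_mem t.r t.r_mem fun X hX hn => by
      rw [(t.nb X hX C hD h).resolve_left fun o => hn o.1, mul_zero], t.Z_r, ← e, t.rb, mul_one]
  · exact Finset.sum_eq_zero fun X hX => by rw [far t hX hD h (Ne.symm e), mul_zero]

end Cb

open Cb in
theorem comb : COMB := by
  intro K _ _ S D hM hl ht
  let I := D.filter fun τ => inter (lg S D) τ.cl = -1
  choose t hb using fun i : I => ht i (Finset.mem_filter.1 i.2).1 (Finset.mem_filter.1 i.2).2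
  have dj : ∀ i j, i ≠ j → Disjoint (t i).T (t j).T := fun i j h =>
    disj (t i) (t j) (hb i) fun e => h (Subtype.ext e)
  have d2 : ∀ i, 2 ≤ (t i).d := fun i => by linarith [(t i).q_pos, (t i).q_lt]
  obtain ⟨m, w, m0, w0, wd⟩ : ∃ (m : ℤ) (w : I → ℤ), 0 < m ∧ (∀ i, 0 < w i) ∧
      ∀ i, w i * (t i).d = m :=
    ⟨∏ i, (t i).d, fun i => ∏ j ∈ Finset.univ.erase i, (t j).d,
      Finset.prod_pos fun i _ => by linarith [d2 i],
      fun i => Finset.prod_pos fun i _ => by linarith [d2 i],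
      fun i => Finset.prod_erase_mul _ _ (Finset.mem_univ i)⟩
  have z0 : ∀ i, 0 ≤ (t i).Z := fun i => (t i).W_nonneg.trans (t i).W_le
  have ex : ∀ X : Div S.W, inter (m • lg S D - ∑ i, w i • (t i).Z) X =
      m * inter (lg S D) X - ∑ i, w i * inter (t i).Z X := fun X => by
    rw [← S.B_apply, map_sub, map_sum, AddMonoidHom.sub_apply, AddMonoidHom.finset_sum_apply]
    simp only [map_zsmul, AddMonoidHom.smul_apply, S.B_apply, smul_eq_mul]
  have onT : ∀ i, ∀ C ∈ (t i).T, inter (m • lg S D - ∑ i, w i • (t i).Z) C.cl = 0 := by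
    intro i C hC
    rw [ex, Finset.sum_eq_single_of_mem i (Finset.mem_univ i) fun j _ hn => by
      rw [Z_off (t j) ((t i).sub hC) (Finset.disjoint_left.1 (dj i j hn.symm) hC), if_neg, mul_zero]
      intro e
      have h1 := l_le (t i) hC
      have h2 := hb j
      rw [e] at h2
      omega, (t i).Z_int C hC]
    split_ifs with e
    · rw [e, (t i).l_tip, ← wd i]; ring
    · rw [(t i).l_zero C hC e]; ring
  by_cases hP : ∀ C ∈ D, 0 ≤ inter (m • lg S D - ∑ i, w i • (t i).Z) C.cl
  · refine Or.inl ⟨m, ∑ i, w i • (t i).Z, m0,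
      Finset.sum_nonneg fun i _ => smul_nonneg (w0 i).le (z0 i), fun C => ?_, hP, ?_⟩
    · rw [Finsupp.finset_sum_apply, Finsupp.smul_apply, rd_apply]
      simp only [Finsupp.smul_apply, smul_eq_mul]
      by_cases hC : ∃ i, C ∈ (t i).T
      · obtain ⟨i, hi⟩ := hC
        rw [Finset.sum_eq_single_of_mem i (Finset.mem_univ i) fun j _ hn => by
          rw [(t j).Z_on C (Finset.disjoint_left.1 (dj i j hn.symm) hi), mul_zero],
          if_pos ((t i).sub hi), mul_one, ← wd i]
        exact mul_le_mul_of_nonneg_left ((t i).Z_lt C).le (w0 i).le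
      · rw [Finset.sum_eq_zero fun j _ => by rw [(t j).Z_on C fun o => hC ⟨j, o⟩, mul_zero]]
        split_ifs <;> omega
    · rw [← S.B_apply, map_sum]
      refine Finset.sum_eq_zero fun i _ => ?_
      rw [map_zsmul, S.B_apply, inter_comm, on_inter (t i).Z_on, Finset.sum_eq_zero, smul_zero]
      intro C hC
      rw [inter_comm, onT i C hC, mul_zero]
  right
  push Not at hP
  obtain ⟨C, hC, hneg⟩ := hP
  have hT : ∀ i, C ∉ (t i).T := fun i hi => hneg.ne (onT i C hi)
  let N := Finset.univ.filter fun i : I => (t i).b = C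
  have h1 : m * inter (lg S D) C.cl < ∑ i ∈ N, w i := by
    rw [ex] at hneg
    rw [Finset.sum_filter]
    refine (sub_neg.1 hneg).trans_eq (Finset.sum_congr rfl fun i _ => ?_)
    rw [Z_off (t i) hC (hT i), mul_ite, mul_one, mul_zero]
  have hN : N.Nonempty := by
    rw [Finset.nonempty_iff_ne_empty]
    intro e
    rw [e, Finset.sum_empty] at h1
    have h2 := hl C hC
    have h3 : inter (lg S D) C.cl < 0 := by
      by_contra o
      exact h1.not_ge (mul_nonneg m0.le (not_lt.1 o))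
    exact hT ⟨C, Finset.mem_filter.2 ⟨hC, by omega⟩⟩ (t _).τ_mem
  have bN : ∀ i ∈ N, (t i).b = C := fun i hi => (Finset.mem_filter.1 hi).2
  have l1 : 1 ≤ inter (lg S D) C.cl := by
    obtain ⟨i, hi⟩ := hN
    rw [← bN i hi]
    exact hb i
  have rs : N.image (fun i => (t i).r) ⊆ D.erase C := fun X hX => by
    obtain ⟨i, -, rfl⟩ := Finset.mem_image.1 hX
    exact Finset.mem_erase.2 ⟨fun e => hT i (e ▸ (t i).r_mem), (t i).sub (t i).r_mem⟩
  have h4 : ∑ X ∈ N.image (fun i => (t i).r), inter X.cl C.cl = N.card := by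
    rw [Finset.sum_image fun i _ j _ e => by
      by_contra hn
      exact Finset.disjoint_left.1 (dj i j hn) (t i).r_mem (by
        rw [show (t i).r = (t j).r from e]; exact (t j).r_mem),
      Finset.sum_congr rfl fun i hi => by rw [← bN i hi, (t i).rb]]
    simp
  have h5 := nbrs hC
  rw [← Finset.sum_sdiff rs, h4] at h5
  have nn : ∀ X ∈ D.erase C \ N.image (fun i => (t i).r), 0 ≤ inter X.cl C.cl := fun X hX =>
    crv_nonneg (Finset.mem_erase.1 (Finset.mem_sdiff.1 hX).1).1
  have h6 := Finset.sum_nonneg nn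
  have h7 : 2 * ∑ i ∈ N, w i ≤ N.card * m := by
    rw [Finset.mul_sum, ← nsmul_eq_mul]
    exact Finset.sum_le_card_nsmul _ _ _ fun i _ => by nlinarith [wd i, d2 i, w0 i]
  have h8 : 2 * inter (lg S D) C.cl < N.card := by
    by_contra o
    nlinarith [mul_le_mul_of_nonneg_right (not_lt.1 o) m0.le]
  have l2 : inter (lg S D) C.cl = 1 := by omega
  have c3 : N.card = 3 := by omega
  have zz : ∀ X ∈ D.erase C \ N.image (fun i => (t i).r), inter X.cl C.cl = 0 :=
    (Finset.sum_eq_zero_iff_of_nonneg nn).1 (by omega)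
  obtain ⟨x, y, z, xy, xz, yz, eN⟩ := Finset.card_eq_three.1 c3
  have mem : ∀ k : Fin 3, ![x, y, z] k ∈ N := fun k => by
    rw [eN]
    fin_cases k <;> simp
  have all : ∀ i ∈ N, ∃ k : Fin 3, ![x, y, z] k = i := fun i hi => by
    rw [eN] at hi
    simp only [Finset.mem_insert, Finset.mem_singleton] at hi
    rcases hi with rfl | rfl | rfl
    exacts [⟨0, rfl⟩, ⟨1, rfl⟩, ⟨2, rfl⟩]
  refine ⟨fun k => ![x, y, z] k, fun k => t (![x, y, z] k), C, fun k => bN _ (mem k), l2,
    fun k k' hk => dj _ _ fun e => hk (inj3 xy xz yz e), fun X hX => ?_, ?_⟩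
  · by_contra hn
    have sub : insert C (N.biUnion fun i => (t i).T) ⊆ D :=
      Finset.insert_subset hC (Finset.biUnion_subset.2 fun i _ => (t i).sub)
    obtain ⟨A, a1, A', a2, a3, a4⟩ := hM.conn _ sub (Finset.insert_nonempty _ _) fun e => hn (by
      rw [← e] at hX
      refine (Finset.mem_insert.1 hX).imp_right fun o => ?_
      obtain ⟨i, hi, o⟩ := Finset.mem_biUnion.1 o
      obtain ⟨k, rfl⟩ := all i hi
      exact ⟨k, o⟩)
    have a5 : A' ≠ C := fun e => a3 (e ▸ Finset.mem_insert_self _ _)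
    have a6 : ∀ i ∈ N, A' ∉ (t i).T := fun i hi o =>
      a3 (Finset.mem_insert_of_mem (Finset.mem_biUnion.2 ⟨i, hi, o⟩))
    refine a4.ne' ?_
    rcases Finset.mem_insert.1 a1 with rfl | o
    · rw [inter_comm]
      refine zz A' (Finset.mem_sdiff.2 ⟨Finset.mem_erase.2 ⟨a5, a2⟩, fun o => ?_⟩)
      obtain ⟨i, hi, rfl⟩ := Finset.mem_image.1 o
      exact a6 i hi (t i).r_mem
    · obtain ⟨i, hi, o⟩ := Finset.mem_biUnion.1 o
      exact far (t i) o a2 (a6 i hi) (bN i hi ▸ a5)
  · rw [l2, eN, Finset.sum_insert (by simp [xy, xz]), Finset.sum_pair yz, mul_one] at h1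
    change (t x).d * (t y).d * (t z).d <
      (t y).d * (t z).d + (t x).d * (t z).d + (t x).d * (t y).d
    refine lt_of_mul_lt_mul_left (a := m) ?_ m0.le
    have p : 0 < (t x).d * (t y).d * (t z).d :=
      mul_pos (mul_pos (by linarith [d2 x]) (by linarith [d2 y])) (by linarith [d2 z])
    have := mul_lt_mul_of_pos_right h1 p
    refine this.trans_eq ?_
    linear_combination (t y).d * (t z).d * wd x + (t x).d * (t z).d * wd y +
      (t x).d * (t y).d * wd z

end Vale.Agent.P297Z.Sf.Mp
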