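import Vale.Agent.P253Y.G.Defs

/-! P253, surfaces: the orthogonal of the boundary. Statement. -/

set_option linter.all false

namespace Vale.Agent.P297Z.Sf.Mp

/-- If many functions are regular outside `D` and the orthogonal of `D` is positive semidefinite,
the orthogonal of `D` is numerically trivial. -/
def PERP : Prop := ForAll fun {K} _ _ S => ∀ (D : Finset (Crv S.W)) (φ₀ : K) (φ : Fin 2 → K),
  φ₀ ≠ 0 → (∀ C, C ∉ D → φ₀ ∈ C.pl.ring ∧ ∀ i, φ i ∈ C.pl.ring) →
  (AlgebraicIndependent ℂ fun i => φ i / φ₀) →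
  (∀ G : Div S.W, (∀ C ∈ D, inter G C.cl = 0) → 0 ≤ inter G G) →
  ∀ A : Div S.W, (∀ C ∈ D, inter A C.cl = 0) → Nz A

end Vale.Agent.P297Z.Sf.Mp
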