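import Vale.Agent.P253Y.G.Defs
import Vale.Agent.P297Y.Alg.Kill
import Vale.Agent.P297Y.Alg.Cs

/-! P253, surfaces, block G: the resolution of the base point of the pencil. -/

set_option linter.all false

namespace Vale.Agent.P297Z.Sf.Mp

namespace Euc

variable {K : Type} [Field K] [Algebra ℂ K] {S S' : Surf K} {E : Crv S.W}

theorem cl_nonneg {W : Submodule ℂ K} (C : Crv W) : 0 ≤ C.cl := Finsupp.single_nonneg.2 zero_le_one

theorem nn {Z : Div S.W} (h : 0 ≤ Z) {C : Crv S.W} (h0 : Z C = 0) : 0 ≤ inter Z C.cl :=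
  inter_nonneg S.all.inte h (cl_nonneg C) fun C' => by
    by_cases e : C' = C
    · exact Or.inl (e ▸ h0)
    · exact Or.inr (Finsupp.single_eq_of_ne e)

theorem isub (A A' X : Div S.W) : inter (A - A') X = inter A X - inter A' X := by
  simp only [← S.B_apply, map_sub, AddMonoidHom.sub_apply]

theorem iadd (A A' X : Div S.W) : inter (A + A') X = inter A X + inter A' X := S.all.add A A' X

theorem ismul (n : ℤ) (A X : Div S.W) : inter (n • A) X = n * inter A X := by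
  simp only [← S.B_apply, map_zsmul, AddMonoidHom.smul_apply, smul_eq_mul]

variable (b : Bd S S' E)

theorem inj : Function.Injective b.ι := fun C C' e =>
  Crv.ext (by rw [← b.pl C, e, b.pl])

theorem ext {A A' : Div S.W} (h : ∀ C, A (b.ι C) = A' (b.ι C)) (h' : A E = A' E) : A = A' := by
  ext C
  by_cases e : C = E
  · rwa [e]
  · obtain ⟨C', rfl⟩ := b.all C e
    exact h C'

theorem cl_ι (C : Crv S'.W) : (b.ι C).cl = b.pb C.cl - b.pb C.cl E • E.cl := by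
  classical
  refine ext b (fun C' => ?_) ?_
  · simp [b.pb_ι, Finsupp.single_apply, (inj b).eq_iff, (b.ne C').symm]
  · simp [Finsupp.single_apply, b.ne C]

theorem ι_E (C : Crv S'.W) : inter (b.ι C).cl E.cl = b.pb C.cl E := by
  rw [cl_ι, isub, ismul, b.pb_E, b.exc.1]
  ring

theorem mu_nonneg (C : Crv S'.W) : 0 ≤ b.pb C.cl E :=
  ι_E b C ▸ nn (cl_nonneg _) (Finsupp.single_eq_of_ne (b.ne C).symm)

theorem ι_pb (A : Div S'.W) (C : Crv S'.W) : inter (b.ι C).cl (b.pb A) = inter C.cl A := by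
  rw [cl_ι, isub, ismul, b.inter_pb, inter_comm E.cl, b.pb_E]
  ring

theorem ι_ι (C C' : Crv S'.W) :
    inter (b.ι C).cl (b.ι C').cl = inter C.cl C'.cl - b.pb C.cl E * b.pb C'.cl E := by
  rw [cl_ι b C, isub, ismul, inter_comm (b.pb _), ι_pb, inter_comm E.cl, ι_E, inter_comm C'.cl]

theorem kap (X : Div S.W) : inter S.kap X = inter (b.pb S'.kap) X + inter E.cl X := by
  rw [← iadd, ← b.kap, inter_lin S.all.toRR _ _ b.c_ne]

theorem ag_ι (C : Crv S'.W) :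
    S.ag (b.ι C).cl = S'.ag C.cl - b.pb C.cl E * b.pb C.cl E + b.pb C.cl E := by
  rw [Surf.ag, Surf.ag, ι_ι, kap b, inter_comm (b.pb _), ι_pb, inter_comm E.cl, ι_E,
    inter_comm C.cl S'.kap]
  ring

theorem mu_sum (A : Div S'.W) : b.pb A E = ∑ C ∈ A.support, A C * b.pb C.cl E := by
  conv_lhs => rw [eq_sum_single A]
  simp only [map_sum, map_zsmul, Finsupp.finset_sum_apply, Finsupp.smul_apply, smul_eq_mul]

open Classical in
/-- The total transform of `D` together with `E`. -/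
noncomputable def up (D : Finset (Crv S'.W)) : Finset (Crv S.W) := insert E (D.image b.ι)

theorem out_up (D : Finset (Crv S'.W)) : out S (up b D) ⊆ out S' D := by
  classical
  rintro _ ⟨C, hC, rfl⟩
  rw [up, Finset.mem_insert, not_or] at hC
  obtain ⟨C', rfl⟩ := b.all C hC.1
  exact ⟨C', fun h => hC.2 (Finset.mem_image_of_mem _ h), (b.pl C').symm⟩

theorem ι_mem {D : Finset (Crv S'.W)} {C : Crv S'.W} (h : C ∈ D) : b.ι C ∈ up b D := by
  classical
  exact Finset.mem_insert_of_mem (Finset.mem_image_of_mem _ h)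

theorem E_mem (D : Finset (Crv S'.W)) : E ∈ up b D := by
  classical
  exact Finset.mem_insert_self _ _

theorem lg_up (D : Finset (Crv S'.W)) (X : Div S.W) : inter (lg S (up b D)) X =
    inter (b.pb (lg S' D)) X + (2 - ∑ C ∈ D, b.pb C.cl E) * inter E.cl X := by
  classical
  have e : rd (up b D) = E.cl + (b.pb (rd D) - (∑ C ∈ D, b.pb C.cl E) • E.cl) := by
    rw [rd, up, Finset.sum_insert (by simp [b.ne]), Finset.sum_image (inj b).injOn, rd, map_sum,
      Finset.sum_smul, ← Finset.sum_sub_distrib]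
    exact congrArg _ (Finset.sum_congr rfl fun C _ => cl_ι b C)
  rw [lg, lg, e, map_add, iadd, iadd, iadd, isub, ismul, kap b]
  ring

/-- The data of the row. -/
def Dat (S : Surf K) (D : Finset (Crv S.W)) (Z : Div S.W) (T : Crv S.W) : Prop :=
  T ∈ D ∧ S.ag T.cl ≤ -2 ∧ 0 ≤ Z ∧ S.Nef Z ∧ 0 < Z T ∧ inter Z Z = Z T * inter Z T.cl ∧
  ((∃ R ∈ D, inter T.cl R.cl = 1 ∧ Z R = 0 ∧ inter Z R.cl = Z T ∧ inter (lg S D) Z < 0) ∨
    inter (lg S D) Z + Z T < 0)

theorem pt {Z : Div S.W} {T : Crv S.W} (h0 : 0 ≤ Z) {P : Crv S.W → Prop}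
    (h : (∃ R, P R ∧ inter T.cl R.cl = 1 ∧ Z R = 0 ∧ inter Z R.cl = Z T ∧ R ≠ T) ∨ ∀ R, ¬ P R) :
    ∃ x : Pt S.W, x.On T ∧ (∀ C, C ≠ T → Z C ≠ 0 → ¬ x.On C) ∧
      ((∃ R, P R) → ∃ R, P R ∧ inter T.cl R.cl = 1 ∧ Z R = 0 ∧ inter Z R.cl = Z T ∧ x.On R) := by
  have hX : ∀ C, C ≠ T → (Z - Z T • T.cl) C = Z C := fun C e => by
    simp [Finsupp.single_eq_of_ne e]
  have hT : (Z - Z T • T.cl) T = 0 := by simp
  have X0 : 0 ≤ Z - Z T • T.cl := fun C => by
    by_cases e : C = T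
    · rw [e]
      exact hT.ge
    · exact (h0 C).trans_eq (hX C e).symm
  have won : ∀ {x : Pt S.W} {R : Crv S.W}, (∃ C, x.On C ∧ R.cl C ≠ 0) → x.On R := fun ⟨C, a, e⟩ =>
    (Finsupp.single_apply_ne_zero.1 e).1 ▸ a
  have dj : ∀ {A : Div S.W} {R : Crv S.W}, A R = 0 → ∀ C, A C = 0 ∨ R.cl C = 0 := fun a C => by
    by_contra e
    rw [not_or] at e
    exact e.1 ((Finsupp.single_apply_ne_zero.1 e.2).1 ▸ a)
  rcases h with ⟨R, a0, a1, a2, a3, a4⟩ | h
  · have d := dj (A := T.cl) (Finsupp.single_eq_of_ne a4)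
    have e := inter_eq S.all.inte (cl_nonneg T) (cl_nonneg R) d
    obtain ⟨x, hx⟩ : ∃ x, mult x T.cl R.cl ≠ 0 := by
      by_contra hc
      push Not at hc
      simp [hc, a1] at e
    obtain ⟨k1, k2⟩ := (S.all.multPos x _ _ (cl_nonneg T) (cl_nonneg R) d).2.1 hx
    refine ⟨x, won k1, fun C c1 c2 c3 => ?_, fun _ => ⟨R, a0, a1, a2, a3, won k2⟩⟩
    have := inter_pos S.all.toLoc1 S.all.multPos S.all.inte X0 (cl_nonneg R)
      (dj ((hX R a4).trans a2)) ⟨C, c3, (hX C c1).symm ▸ c2⟩ k2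
    rw [isub, ismul, a1, a3] at this
    omega
  · obtain ⟨w, w1, w2⟩ := T.exists_in
    obtain ⟨x, x1, x2⟩ := (S.all.inf_pt T w w1 w2).exists_notMem_finite
      (meet_finite S.all.toLoc1 (dj hT))
    exact ⟨x, x1.1, fun C c1 c2 c3 => x2 ⟨⟨C, c3, (hX C c1).symm ▸ c2⟩, T, x1.1, by simp⟩,
      fun ⟨R, a⟩ => (h R a).elim⟩

theorem step (h1 : CN2) {D : Finset (Crv S'.W)} {Z : Div S'.W} {T : Crv S'.W}
    (h : Dat S' D Z T) (hu : 0 < inter Z T.cl) :
    ∃ (S : Surf K) (D' : Finset (Crv S.W)) (Z' : Div S.W) (T' : Crv S.W),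
      chi (0 : Div S.W) = chi (0 : Div S'.W) ∧ out S D' ⊆ out S' D ∧ Dat S D' Z' T' ∧
      inter Z' T'.cl + Z' T' < inter Z T.cl + Z T := by
  classical
  obtain ⟨hT, hg, Z0, hN, hy, hq, hc⟩ := h
  obtain ⟨x, x1, x2, x3⟩ := pt (T := T) Z0 (P := fun R => R ∈ D ∧ inter T.cl R.cl = 1 ∧ Z R = 0 ∧
      inter Z R.cl = Z T ∧ inter (lg S' D) Z < 0) (by
    by_contra e
    rw [not_or, not_forall] at e
    obtain ⟨e, R, a⟩ := e
    rw [not_not] at a
    exact e ⟨R, a, a.2.1, a.2.2.1, a.2.2.2.1, fun k => hy.ne' (k ▸ a.2.2.1)⟩)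
  obtain ⟨S, E, b, e0, hb⟩ := h1 K S' x
  have mT : b.pb T.cl E = 1 := by
    have a1 := (hb T).1 x1
    have a2 := gle cs K S (b.ι T)
    rw [ag_ι] at a2
    nlinarith [Int.natCast_nonneg (P019P.gen ℂ (b.ι T).Fn)]
  have mZ : b.pb Z E = Z T := by
    rw [mu_sum, Finset.sum_eq_single T (fun C c1 c2 => ?_) (fun c => by
      rw [Finsupp.notMem_support_iff.1 c, zero_mul]), mT, mul_one]
    rw [le_antisymm (not_lt.1 (mt (hb C).2 (x2 C c2 (Finsupp.mem_support_iff.1 c1))))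
      (mu_nonneg b C), mul_zero]
  have EE := b.exc.1
  have key : ∀ k, 0 ≤ k → k ≤ Z T → k ≤ inter Z T.cl → ∃ Z' : Div S.W, 0 ≤ Z' ∧ S.Nef Z' ∧
      Z' E = Z T - k ∧ (∀ C, Z' (b.ι C) = Z C) ∧ inter Z' E.cl = k ∧
      (∀ C, inter Z' (b.ι C).cl = inter Z C.cl - k * b.pb C.cl E) ∧
      inter Z' Z' = inter Z Z - k * k ∧
      inter (lg S (up b D)) Z' = inter (lg S' D) Z + (2 - ∑ C ∈ D, b.pb C.cl E) * k := by
    intro k k0 k1 k2
    have a1 : (b.pb Z - k • E.cl) E = Z T - k := by simp [mZ]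
    have a2 : ∀ C, (b.pb Z - k • E.cl) (b.ι C) = Z C := fun C => by
      simp [b.pb_ι, Finsupp.single_eq_of_ne (b.ne C)]
    have a3 : inter (b.pb Z - k • E.cl) E.cl = k := by
      rw [isub, ismul, b.pb_E, EE]
      ring
    have a4 : ∀ C, inter (b.pb Z - k • E.cl) (b.ι C).cl = inter Z C.cl - k * b.pb C.cl E :=
      fun C => by rw [isub, ismul, inter_comm (b.pb Z), ι_pb, inter_comm E.cl, ι_E, inter_comm C.cl]
    have a5 : ∀ A, inter (b.pb A) (b.pb Z - k • E.cl) = inter A Z := fun A => by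
      rw [inter_comm, isub, ismul, b.inter_pb, inter_comm E.cl, b.pb_E, inter_comm Z]
      ring
    have a0 : 0 ≤ b.pb Z - k • E.cl := fun C => by
      by_cases e : C = E
      · rw [e, a1]
        exact sub_nonneg.2 k1
      · obtain ⟨C', rfl⟩ := b.all C e
        exact (Z0 C').trans_eq (a2 C').symm
    refine ⟨_, a0, fun C => ?_, a1, a2, a3, a4, ?_, ?_⟩
    · by_cases e : C = E
      · rwa [e, a3]
      obtain ⟨C', rfl⟩ := b.all C e
      by_cases c1 : C' = T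
      · rw [a4, c1, mT]
        omega
      by_cases c2 : Z C' = 0
      · exact nn a0 ((a2 C').trans c2)
      · rw [a4, le_antisymm (not_lt.1 (mt (hb C').2 (x2 C' c1 c2))) (mu_nonneg b C'), mul_zero,
          sub_zero]
        exact hN C'
    · rw [isub, ismul, a5, inter_comm E.cl, a3]
    · rw [lg_up, a5, inter_comm E.cl, a3]
  have hc' : (∃ R ∈ D, b.pb R.cl E = 1 ∧ Z R = 0 ∧ inter Z R.cl = Z T ∧ inter (lg S' D) Z < 0 ∧
      2 ≤ ∑ C ∈ D, b.pb C.cl E) ∨ inter (lg S' D) Z + Z T < 0 := hc.imp_left fun hc => by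
    obtain ⟨R, ⟨r0, r1, r2, r3, r4⟩, -, -, -, r5⟩ := x3 hc
    have r6 : T ≠ R := fun k => hy.ne' (k ▸ r2)
    have a1 := (hb R).1 r5
    have a2 := nn (cl_nonneg (b.ι T)) (Finsupp.single_eq_of_ne ((inj b).ne r6.symm))
    rw [ι_ι, r1, mT] at a2
    have a3 := Finset.sum_le_sum_of_subset_of_nonneg (f := fun C => b.pb C.cl E) (s := {T, R})
      (Finset.insert_subset hT (Finset.singleton_subset_iff.2 r0)) fun C _ _ => mu_nonneg b C
    rw [Finset.sum_pair r6] at a3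
    exact ⟨R, r0, by omega, r2, r3, r4, by omega⟩
  have m1 : 1 ≤ ∑ C ∈ D, b.pb C.cl E :=
    mT ▸ Finset.single_le_sum (f := fun C => b.pb C.cl E) (fun C _ => mu_nonneg b C) hT
  rcases le_or_gt (Z T) (inter Z T.cl) with c | c
  · obtain ⟨Z', a0, a1, a2, a3, a4, a5, a6, a7⟩ := key (Z T) hy.le le_rfl c
    refine ⟨S, up b D, Z', b.ι T, e0, out_up b D, ⟨ι_mem b hT, by rw [ag_ι, mT]; omega, a0, a1,
      a3 T ▸ hy, by rw [a6, a3, a5, mT, hq]; ring, Or.inl ⟨E, E_mem b D, (ι_E b T).trans mT,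
        by omega, a4.trans (a3 T).symm, ?_⟩⟩, by rw [a5, a3, mT]; omega⟩
    rcases hc' with ⟨R, -, -, -, -, r4, r5⟩ | r <;> nlinarith
  · obtain ⟨Z', a0, a1, a2, a3, a4, a5, a6, a7⟩ := key _ hu.le c.le le_rfl
    refine ⟨S, up b D, Z', E, e0, out_up b D, ⟨E_mem b D, by rw [Surf.ag, EE, b.exc.2]; omega, a0,
      a1, by omega, by rw [a6, a2, a4, hq]; ring, hc'.imp (fun ⟨R, r0, r1, r2, r3, r4, r5⟩ =>
        ⟨b.ι R, ι_mem b r0, by rw [inter_comm, ι_E, r1], (a3 R).trans r2,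
          by rw [a5, r1, r3, a2, mul_one], by nlinarith⟩) fun r => by nlinarith⟩, by omega⟩

end Euc

open Euc in
theorem euc (h1 : CN2) (h2 : PEN) : EUC := by
  intro K _ _
  have key : ∀ (n : ℕ) (S : Surf K) (D : Finset (Crv S.W)) (Z : Div S.W) (T : Crv S.W),
      1 ≤ chi (0 : Div S.W) → Dat S D Z T → inter Z T.cl + Z T < n → Cyl K (out S D) := by
    intro n
    induction n with
    | zero =>
      intro S D Z T _ h hn
      have := h.2.2.2.1 T
      have := h.2.2.2.2.1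
      omega
    | succ n ih =>
      intro S D Z T hc h hn
      rcases (h.2.2.2.1 T).eq_or_lt with hu | hu
      · obtain ⟨-, -, a0, a1, a2, a3, a4⟩ := h
        refine h2 K S hc D Z a0 a1 (by rw [a3, ← hu, mul_zero]) ?_
        rcases a4 with ⟨-, -, -, -, -, a⟩ | a <;> omega
      · obtain ⟨S₁, D', Z', T', a0, a1, a2, a3⟩ := step h1 h hu
        exact (ih S₁ D' Z' T' (a0 ▸ hc) a2 (by push_cast at hn; omega)).mono a1
  intro S hc D Z T hT a0 a1 a2 a3 a4 a5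
  exact key ((inter Z T.cl + Z T).toNat + 1) S D Z T hc ⟨hT, a0, a1, a2, a3, a4, a5⟩ (by omega)

end Vale.Agent.P297Z.Sf.Mp
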