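import Vale.Agent.P253Y.G.Defs

/-! P253, surfaces, block G: there is no fork. -/

namespace Vale.Agent.P297Z.Sf.Mp

variable {K : Type} [Field K] [Algebra ℂ K] {S : Surf K}

namespace Fk

theorem iadd (A B X : Div S.W) : inter (A + B) X = inter A X + inter B X := S.all.add A B X

theorem isub (A B X : Div S.W) : inter (A - B) X = inter A X - inter B X := by
  simp only [← S.B_apply, map_sub, AddMonoidHom.sub_apply]

theorem ismul (c : ℤ) (A X : Div S.W) : inter (c • A) X = c * inter A X := by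
  simp only [← S.B_apply, map_zsmul, AddMonoidHom.zsmul_apply, smul_eq_mul]

theorem isum {ι : Type} (s : Finset ι) (A : ι → Div S.W) (X : Div S.W) :
    inter (∑ i ∈ s, A i) X = ∑ i ∈ s, inter (A i) X := by
  simp only [← S.B_apply, map_sum, AddMonoidHom.finsetSum_apply]

open Classical in
theorem on_int {A X : Div S.W} {T : Finset (Crv S.W)} {r : Crv S.W} {u : ℤ} (hA : On A T)
    (h : ∀ C ∈ T, inter C.cl X = if C = r then u else 0) : inter A X = A r * u := by
  conv_lhs => rw [eq_sum_single A, isum]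
  rw [Finset.sum_congr rfl (g := fun C => if C = r then A r * u else 0) fun C hC => by
    rw [ismul, h C (by_contra fun o => Finsupp.mem_support_iff.1 hC (hA C o))]
    split_ifs with e
    · rw [e]
    · rw [mul_zero], Finset.sum_ite_eq']
  split_ifs with e
  · rfl
  · rw [Finsupp.notMem_support_iff.1 e, zero_mul]

theorem on_zero {A X : Div S.W} {T : Finset (Crv S.W)} (r : Crv S.W) (hA : On A T)
    (h : ∀ C ∈ T, inter C.cl X = 0) : inter A X = 0 := by
  rw [on_int (r := r) (u := 0) hA fun C hC => by rw [h C hC, ite_self], mul_zero]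

/-- No multiple of the logarithmic canonical class is numerically effective. -/
theorem nz_ne {D : Finset (Crv S.W)} (h : Cls S D) {m : ℤ} (hm : 0 < m) {G : Div S.W} (hG : 0 ≤ G)
    (hN : Nz (m • lg S D - G)) : False := by
  obtain ⟨k, hk⟩ : ∃ k : ℤ, k = |inter S.H S.kap| + 1 := ⟨_, rfl⟩
  obtain ⟨j, hj⟩ := h.nb (k • S.H)
  obtain ⟨m, rfl⟩ := Int.eq_ofNat_of_zero_le hm.le
  have a1 := le_abs_self (inter S.H S.kap)
  have a2 := abs_nonneg (inter S.H S.kap)
  have a3 : k ≤ k * inter S.H S.H := le_mul_of_one_le_right (by omega) S.all.sq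
  have e : ∀ X, inter (k • S.H + (j : ℤ) • ((m : ℤ) • lg S D - G)) X = k * inter S.H X :=
    fun X => by rw [iadd, ismul, ismul, hN, mul_zero, add_zero]
  refine Hd.sec_of S.all (x := k • S.H + (j : ℤ) • ((m : ℤ) • lg S D - G)) ?_ ?_
    (le_bot_iff.1 (le_of_le_of_eq (fun f hf => ?_)
      (hj (j * m) (Nat.le_mul_of_pos_right _ (by omega)))))
  · rw [inter_comm _ (_ + _), e]
    omega
  · rw [e, inter_comm S.H, e, inter_comm S.kap, e]
    have := h.chi
    nlinarith
  · refine hf.imp_right fun h1 C _ => (h1 C trivial).trans ?_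
    have := mul_nonneg (Int.natCast_nonneg j) (hG C)
    simp only [Finsupp.add_apply, Finsupp.smul_apply, Finsupp.sub_apply, smul_eq_mul,
      nsmul_eq_mul, Nat.cast_mul] at this ⊢
    linarith

/-- The last step: a fork of four curves. -/
theorem four {D : Finset (Crv S.W)} (h : Cls S D) {b : Crv S.W} {r : Fin 3 → Crv S.W}
    (hb : ∀ i, b ≠ r i) (hr : ∀ i j, i ≠ j → r i ≠ r j)
    (hD : ∀ C, C ∈ D ↔ C = b ∨ ∃ i, C = r i) (b1 : inter (lg S D) b.cl = 1)
    (b2 : inter b.cl b.cl = -1) (r1 : ∀ i, inter (lg S D) (r i).cl = -1)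
    (r2 : ∀ i, inter (r i).cl b.cl = 1) (r3 : ∀ i, inter (r i).cl (r i).cl ≤ -2)
    (r4 : ∀ i j, i ≠ j → inter (r i).cl (r j).cl = 0) : False := by
  classical
  have e : rd D = b.cl + ((r 0).cl + ((r 1).cl + (r 2).cl)) := by
    have : D = {b, r 0, r 1, r 2} := by
      ext C
      simp [hD, Fin.exists_fin_succ]
    rw [rd, this, Finset.sum_insert (by simp [hb]), Finset.sum_insert (by simp [hr]),
      Finset.sum_pair (hr 1 2 (by decide))]
  have L : ∀ X, inter (lg S D) X = inter S.kap X + (inter b.cl X + (inter (r 0).cl X +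
      (inter (r 1).cl X + inter (r 2).cl X))) := fun X => by rw [lg, e, iadd, iadd, iadd, iadd]
  have z := h.perp (lg S D + b.cl) (fun C hC => by
    rcases (hD C).1 hC with rfl | ⟨i, rfl⟩
    · rw [iadd, b1, b2]; rfl
    · rw [iadd, r1, inter_comm, r2]; rfl) S.kap
  have n3 := h.n3 4 ![b.cl, (r 0).cl, (r 1).cl, (r 2).cl] fun X hX => h.perp X fun C hC => by
    rcases (hD C).1 hC with rfl | ⟨i, rfl⟩
    · exact hX 0
    · fin_cases i
      exacts [hX 1, hX 2, hX 3]
  have c0 := r1 0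
  have c1 := r1 1
  have c2 := r1 2
  rw [L, inter_comm b.cl, r2, r4 1 0 (by decide), r4 2 0 (by decide), inter_comm] at c0
  rw [L, inter_comm b.cl, r2, r4 0 1 (by decide), r4 2 1 (by decide), inter_comm] at c1
  rw [L, inter_comm b.cl, r2, r4 0 2 (by decide), r4 1 2 (by decide), inter_comm] at c2
  rw [L, r2, r2, r2, b2, inter_comm] at b1
  rw [iadd, L] at z
  have := r3 0
  have := r3 1
  have := r3 2
  push_cast at n3
  omega

end Fk

open Fk

theorem fork (h : ARI) : FORK := by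
  classical
  rintro K _ _ S D hM ⟨τ, t, b, hb, lb, dis, cov, ineq⟩
  have hc := hM.toCls
  obtain ⟨p, hp⟩ : ∃ p : Fin 3 → ℤ,
      p = ![(t 1).d * (t 2).d, (t 0).d * (t 2).d, (t 0).d * (t 1).d] := ⟨_, rfl⟩
  obtain ⟨N, hN⟩ : ∃ N, N = (t 0).d * (t 1).d * (t 2).d := ⟨_, rfl⟩
  have d0 : ∀ i, 0 < (t i).d := fun i => by have := (t i).q_pos; have := (t i).q_lt; omega
  have p0 : p 0 = (t 1).d * (t 2).d := by rw [hp]; rfl
  have p1 : p 1 = (t 0).d * (t 2).d := by rw [hp]; rfl
  have p2 : p 2 = (t 0).d * (t 1).d := by rw [hp]; rfl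
  have pd : ∀ i, p i * (t i).d = N ∧ 0 < p i := fun i => by
    fin_cases i
    · exact ⟨(congrArg (· * (t 0).d) p0).trans (by rw [hN]; ring), p0 ▸ mul_pos (d0 1) (d0 2)⟩
    · exact ⟨(congrArg (· * (t 1).d) p1).trans (by rw [hN]; ring), p1 ▸ mul_pos (d0 0) (d0 2)⟩
    · exact ⟨(congrArg (· * (t 2).d) p2).trans (by rw [hN]), p2 ▸ mul_pos (d0 0) (d0 1)⟩
  have N0 : 0 < N := (pd 0).1 ▸ mul_pos (pd 0).2 (d0 0)
  have bn : ∀ i, b ∉ (t i).T := fun i => hb i ▸ (t i).b_not
  have tb : ∀ i, ∀ C ∈ (t i).T, inter C.cl b.cl = if C = (t i).r then 1 else 0 := fun i C hC => by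
    split_ifs with e
    · rw [e, ← hb i, (t i).rb]
    · exact ((t i).nb C hC b (hb i ▸ (t i).b_mem) (bn i)).resolve_left fun o => e o.1
  have tt : ∀ i j, i ≠ j → ∀ C ∈ (t i).T, ∀ C' ∈ (t j).T, inter C.cl C'.cl = 0 :=
    fun i j hij C hC C' hC' => ((t i).nb C hC C' ((t j).sub hC')
      (Finset.disjoint_right.1 (dis i j hij) hC')).resolve_left fun o =>
        bn j (hb i ▸ o.2 ▸ hC')
  have tl : ∀ i, ∀ C ∈ (t i).T, inter C.cl (lg S D) = if C = τ i then -1 else 0 := fun i C hC => by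
    rw [inter_comm]
    split_ifs with e
    · rw [e, (t i).l_tip]
    · exact (t i).l_zero C hC e
  have sm : ∀ (A : ∀ i, Div S.W), (∀ i, On (A i) (t i).T) → ∀ j, ∀ C ∈ (t j).T,
      inter (∑ i, p i • A i) C.cl = p j * inter (A j) C.cl := fun A hA j C hC => by
    rw [isum, Finset.sum_eq_single j (fun i _ hij => by
      rw [ismul, on_zero b (hA i) fun C' hC' => tt i j hij C' hC' C hC, mul_zero]) (by simp), ismul]
  obtain ⟨Bs, hB⟩ : ∃ Bs, Bs = N • b.cl + ∑ i, p i • (t i).Y := ⟨_, rfl⟩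
  obtain ⟨P, hP⟩ : ∃ P, P = N • lg S D - ∑ i, p i • (t i).Z := ⟨_, rfl⟩
  obtain ⟨E, hE⟩ : ∃ E, E = N * inter b.cl b.cl + ∑ i, p i * (t i).q := ⟨_, rfl⟩
  obtain ⟨ε, hε⟩ : ∃ ε, ε = ∑ i, p i - N := ⟨_, rfl⟩
  have ε0 : 0 < ε := by rw [hε, Fin.sum_univ_three, p0, p1, p2, hN]; omega
  have B1 : ∀ j, ∀ C ∈ (t j).T, inter Bs C.cl = 0 := fun j C hC => by
    rw [hB, iadd, ismul, sm _ (fun i => (t i).Y_on) j C hC, inter_comm, tb j C hC, (t j).Y_int C hC]
    split_ifs <;> linarith [(pd j).1]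
  have B2 : inter Bs b.cl = E := by
    rw [hB, iadd, ismul, isum, hE]
    simp only [ismul, fun i => on_int (t i).Y_on (tb i), Tw.Y_r, mul_one]
  have P1 : ∀ j, ∀ C ∈ (t j).T, inter P C.cl = 0 := fun j C hC => by
    rw [hP, isub, ismul, sm _ (fun i => (t i).Z_on) j C hC, inter_comm, tl j C hC, (t j).Z_int C hC]
    split_ifs <;> linarith [(pd j).1]
  have P2 : inter P b.cl = -ε := by
    rw [hP, isub, ismul, isum, hε, lb]
    simp only [ismul, fun i => on_int (t i).Z_on (tb i), Tw.Z_r, mul_one, neg_sub]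
  have nz := hc.perp (E • P + ε • Bs) fun C hC => by
    rw [iadd, ismul, ismul]
    rcases cov C hC with rfl | ⟨j, hj⟩
    · rw [B2, P2]; ring
    · rw [B1 j C hj, P1 j C hj]; ring
  have pos : ∀ A : Fin 3 → Div S.W, (∀ i, 0 ≤ A i) → 0 ≤ ∑ i, p i • A i := fun A hA =>
    Finset.sum_nonneg fun i _ => smul_nonneg (pd i).2.le (hA i)
  have B0 : 0 ≤ Bs := hB ▸ add_nonneg (smul_nonneg N0.le (Finsupp.single_nonneg.2 zero_le_one))
    (pos _ fun i => (t i).Y_nonneg)
  rcases lt_trichotomy E 0 with e | e | e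
  · refine nz_ne hc (m := -E * N) (mul_pos (by omega) N0)
      (G := (-E) • ∑ i, p i • (t i).Z + ε • Bs) (add_nonneg (smul_nonneg (by omega)
        (pos _ fun i => (t i).W_nonneg.trans (t i).W_le)) (smul_nonneg ε0.le B0)) fun X => ?_
    have := nz X
    rw [iadd, ismul, ismul, hP, isub, ismul] at this
    rw [isub, iadd, ismul, ismul, ismul]
    linarith
  · have h1 := nz S.H
    rw [iadd, ismul, ismul, e, zero_mul, zero_add, inter_comm] at h1
    refine (mul_pos ε0 (Rul.H_pos S.all B0 (C := b) ?_)).ne' h1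
    have := pos _ (fun i => (t i).Y_nonneg) b
    rw [hB, Finsupp.add_apply, Finsupp.smul_apply, Finsupp.single_eq_same, smul_eq_mul]
    exact (add_pos_of_pos_of_nonneg (by omega) this).ne'
  have oP : ∀ A : Fin 3 → Div S.W, (∀ i, On (A i) (t i).T) → inter (∑ i, p i • A i) P = 0 :=
    fun A hA => by
      rw [isum]
      exact Finset.sum_eq_zero fun i _ => by
        rw [ismul, on_zero b (hA i) fun C hC => by rw [inter_comm, P1 i C hC], mul_zero]
  have h1 := nz P
  have h2 : inter P P = N * inter P (lg S D) := by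
    conv_lhs => rw [hP, isub, ismul, ← hP, oP _ fun i => (t i).Z_on, inter_comm, sub_zero]
  have h3 : inter Bs P = N * -ε := by
    rw [hB, iadd, ismul, oP _ fun i => (t i).Y_on, inter_comm, P2, add_zero]
  have h4 : inter P (lg S D) = N * inter (lg S D) (lg S D) + ∑ i, p i * (t i).Z (τ i) := by
    rw [hP, isub, ismul, isum]
    simp only [ismul, fun i => on_int (t i).Z_on (tl i), mul_neg, mul_one, Finset.sum_neg_distrib,
      sub_neg_eq_add]
  rw [iadd, ismul, ismul, h2, h3] at h1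
  have h5 : ε ^ 2 = E * inter P (lg S D) := mul_left_cancel₀ N0.ne' (by linarith)
  have T1 : ∀ i, (t i).q = 1 → τ i = (t i).r := fun i hq =>
    Finset.mem_singleton.1 ((t i).q_one hq ▸ (t i).τ_mem)
  rw [h4, hε, hE] at h5
  rw [hE] at e
  simp only [Fin.sum_univ_three, p0, p1, p2, hN] at h5 e
  obtain ⟨s1, q1⟩ := h (fun i => (t i).d) (fun i => (t i).q) (fun i => (t i).Z (τ i)) _ _
    (fun i => ⟨(t i).q_pos, (t i).q_lt⟩) (fun i hq => (congrArg (t i).Z (T1 i hq)).trans (t i).Z_r) ineq e h5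
  have T2 : ∀ i C, C ∈ (t i).T ↔ C = (t i).r := fun i C => by
    rw [(t i).q_one (q1 i), Finset.mem_singleton]
  refine four hc (b := b) (r := fun i => (t i).r) (fun i o => bn i (o ▸ (t i).r_mem))
    (fun i j hij o => Finset.disjoint_left.1 (dis i j hij) (t i).r_mem (o ▸ (t j).r_mem))
    (fun C => ⟨fun hC => (cov C hC).imp_right fun o => o.imp fun i => (T2 i C).1, ?_⟩) lb s1
    (fun i => T1 i (q1 i) ▸ (t i).l_tip) (fun i => hb i ▸ (t i).rb) (fun i => ?_)
    fun i j hij => tt i j hij _ (t i).r_mem _ (t j).r_mem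
  · rintro (rfl | ⟨i, rfl⟩)
    exacts [hb 0 ▸ (t 0).b_mem, (t i).sub (t i).r_mem]
  · have a1 := (t i).Y_int _ (t i).r_mem
    rw [on_int (t i).Y_on (r := (t i).r) (u := inter (t i).r.cl (t i).r.cl) fun C hC => by
      rw [(T2 i C).1 hC, if_pos rfl], (t i).Y_r, q1 i, if_pos rfl] at a1
    have := (t i).q_lt
    have := q1 i
    omega

end Vale.Agent.P297Z.Sf.Mp
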