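import Vale.Agent.P253Y.G.Defs
import Vale.Agent.P297Y.Alg.Penb

/-! P253, surfaces, block G: some horizontal curve has its centre in `D`. -/

set_option linter.all false

open IntermediateField
open scoped IntermediateField.algebraAdjoinAdjoin

namespace Vale.Agent.P297Z.Sf.Mp

variable {K : Type} [Field K] [Algebra ℂ K]

namespace Noh

theorem trdeg_le {k : Type} [Field k] [Algebra ℂ k] [h : P019P.CFF ℂ k] :
    Algebra.trdeg ℂ k ≤ 1 := by
  obtain ⟨t, -, hfin⟩ := h.ex
  have h0 : Algebra.IsAlgebraic ℂ⟮t⟯ k := inferInstance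
  have h1 : Algebra.IsAlgebraic (Algebra.adjoin ℂ ({t} : Set k)) k :=
    (IsFractionRing.comap_isAlgebraic_iff (K := ℂ⟮t⟯)).2 h0
  simpa using Algebra.IsAlgebraic.trdeg_le_cardinalMk ℂ ({t} : Set k)

/-- three functions which are regular outside `D` and proportional to the coordinates -/
theorem exists_reg (S : Surf K) {D : Finset (Crv S.W)} {A : Div S.W} (hD : On A D) (h0 : 0 ≤ A)
    (hp : 0 < inter A A) : ∃ g : K, g ≠ 0 ∧ ∀ i C, C ∉ D → 0 ≤ C.ord (g * S.x i) := by
  have hA := S.all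
  obtain ⟨C₀, hC⟩ : ∃ C, A C ≠ 0 := by
    by_contra! h
    rw [show A = 0 from Finsupp.ext h, Hd.inter_zero hA] at hp
    exact lt_irrefl _ hp
  have h1 := Rul.H_pos hA h0 hC
  have h2 := hA.sq
  have h3 := inter_comm A S.H
  obtain ⟨N, hN, h4⟩ := Hd.eff_nsmul hA
    (x := (2 * inter S.H A + inter S.H S.H) • A - S.H) (by
      rw [← interHom_apply hA.toRR]
      simp only [map_sub, map_zsmul, AddMonoidHom.sub_apply, AddMonoidHom.zsmul_apply, smul_eq_mul,
        interHom_apply, h3]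
      have h5 := mul_le_mul_of_nonneg_left (Int.add_one_le_of_lt hp)
        (mul_self_nonneg (2 * inter S.H A + inter S.H S.H))
      nlinarith) (by
      rw [← interHom_apply hA.toRR]
      simp only [map_sub, map_zsmul, smul_eq_mul, interHom_apply]
      nlinarith)
  obtain ⟨g, hg, g0⟩ := (Submodule.ne_bot_iff _).1 h4
  obtain ⟨n, rfl⟩ : ∃ n : ℕ, N = n + 1 := ⟨(N - 1).toNat, by omega⟩
  have x0 := pow_ne_zero n (S.x_ne 0)
  refine ⟨g * S.x 0 ^ n, mul_ne_zero g0 x0, fun i C hC => ?_⟩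
  have a1 := hg.resolve_left g0 C trivial
  have a2 := fun j => (S.mem_M_one hA.toLoc (S.x_mem j)).resolve_left (S.x_ne j) C trivial
  have a3 := mul_nonneg (Int.natCast_nonneg n) (a2 0)
  have a4 := a2 i
  simp only [Finsupp.smul_apply, Finsupp.sub_apply, Finsupp.add_apply, Finsupp.zero_apply, hD C hC,
    smul_eq_mul] at a1 a3 a4
  unfold Crv.ord at *
  rw [Pl.ord_mul _ (mul_ne_zero g0 x0) (S.x_ne i), Pl.ord_mul _ g0 x0, Pl.ord_pow]
  linarith

end Noh

theorem noh : NOH := by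
  intro K _ _ S D A hD h0 hp S' P h
  obtain ⟨g, g0, hg⟩ := Noh.exists_reg S hD h0 hp
  have h1 : ∀ i, g * S.x i ∈ P.k := fun i => (penb K S' P).vert _ fun C hC => by
    obtain ⟨x, h2, h3⟩ := h C hC
    refine h3 _ ((S.all.normal x _).1 (Or.inr fun C' hC' => ?_))
    rw [Finsupp.zero_apply, add_zero]
    exact hg i C' fun hm => h2 C' hm hC'
  have h2 : ∀ i, S.x i / S.x 0 ∈ P.k := fun i =>
    mul_div_mul_left (S.x i) (S.x 0) g0 ▸ div_mem (h1 i) (h1 0)
  have h3 : AlgebraicIndependent ℂ ![(⟨_, h2 1⟩ : P.k), ⟨_, h2 2⟩] := by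
    refine AlgebraicIndependent.of_comp P.k.val ?_
    convert S.indep using 1
    ext i
    fin_cases i <;> rfl
  have h4 := h3.cardinalMk_le_trdeg.trans Noh.trdeg_le
  simp at h4

end Vale.Agent.P297Z.Sf.Mp
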