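import Vale.Agent.P253Y.G.Defs
import Vale.Agent.P297Y.Alg.Cs
import Vale.Agent.P297Y.Alg.Penb
import Vale.Agent.P297Y.Alg.Penn
import Vale.Agent.P297Y.Alg.Penof

/-! P253, surfaces, block G: the pencil of a nef divisor of square zero. -/

set_option linter.all false

namespace Vale.Agent.P297Z.Sf.Mp

open Vale.Agent.P019P (CFF Plk)

variable {K : Type} [Field K] [Algebra ℂ K] {S : Surf K}

namespace PenA

theorem orth {Φ Z : Div S.W} (hΦ : S.Nef Φ) (hZ : 0 ≤ Z) (h : inter Φ Z = 0) {C : Crv S.W}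
    (hC : Z C ≠ 0) : inter Φ C.cl = 0 := by
  rw [Penn.inter_sum] at h
  exact (mul_eq_zero.1 ((Finset.sum_eq_zero_iff_of_nonneg fun C _ =>
    mul_nonneg (hZ C) (hΦ C)).1 h C (Finsupp.mem_support_iff.2 hC))).resolve_left hC

theorem orth' {Φ Z : Div S.W} (h : ∀ C, Z C ≠ 0 → inter Φ C.cl = 0) : inter Φ Z = 0 := by
  rw [Penn.inter_sum]
  exact Finset.sum_eq_zero fun C hC => by rw [h C (Finsupp.mem_support_iff.1 hC), mul_zero]

/-- a function whose divisor is orthogonal to `Φ` has no point of indeterminacy -/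
theorem defd {Φ : Div S.W} (h1 : inter Φ Φ = 0) (h2 : inter S.H Φ ≠ 0) {f : K} (hf : f ≠ 0)
    (h : ∀ C : Crv S.W, C.ord f ≠ 0 → inter Φ C.cl = 0) (x : Pt S.W) :
    f ∈ x.ring ∨ f⁻¹ ∈ x.ring := by
  have hA := S.all
  let Z₀ : Div S.W := (div S.W f).mapRange (max · 0) (max_self 0)
  let Z₁ : Div S.W := (div S.W f).mapRange (fun n => max (-n) 0) (by simp)
  have e0 : ∀ C, Z₀ C = max (C.ord f) 0 := fun C => by
    rw [Finsupp.mapRange_apply, div_apply hA.toLoc2]
  have e1 : ∀ C, Z₁ C = max (-C.ord f) 0 := fun C => by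
    rw [Finsupp.mapRange_apply, div_apply hA.toLoc2]
  have e2 : Z₁ + div S.W f = Z₀ := Finsupp.ext fun C => by
    rw [Finsupp.add_apply, e0, e1, div_apply hA.toLoc2]
    omega
  have h3 : inter Z₁ Z₀ ≤ 0 := by
    rw [← inter_lin hA.toRR Z₁ Z₀ hf, e2]
    exact Hd.hodge_null hA h1 h2 (orth' fun C hC => h C fun o => hC (by rw [e0, o, max_self]))
  by_contra o
  rw [not_or, ← hA.normal, ← hA.normal] at o
  refine h3.not_gt (inter_pos hA.toLoc1 hA.multPos hA.inte (x := x)
    (fun C => by rw [e1]; exact le_max_right _ _) (fun C => by rw [e0]; exact le_max_right _ _)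
    (fun C => by rw [e0, e1]; omega) ?_ ?_)
  · by_contra o'
    push Not at o'
    refine o.1 (Or.inr fun C hC => ?_)
    have := o' C hC
    rw [e1] at this
    rw [Finsupp.zero_apply]
    omega
  · by_contra o'
    push Not at o'
    refine o.2 (Or.inr fun C hC => ?_)
    have := o' C hC
    have e3 : C.ord f⁻¹ = -C.ord f := by
      simpa using Pl.ord_zpow C.pl f (-1)
    rw [e0] at this
    rw [Finsupp.zero_apply, e3]
    omega

theorem inter_rd (X : Div S.W) (D : Finset (Crv S.W)) :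
    inter X (rd D) = ∑ C ∈ D, inter X C.cl := by
  rw [← S.B_apply, rd, map_sum]
  rfl

theorem inter_lg (X : Div S.W) (D : Finset (Crv S.W)) :
    inter (lg S D) X = inter S.kap X + ∑ C ∈ D, inter X C.cl := by
  rw [lg, S.all.add, inter_comm (rd D), inter_rd]

/-- the theorem of Riemann and Roch for a nef class of square zero -/
theorem rr {Z : Div S.W} (hn : S.Nef Z) (h0' : inter Z Z = 0) (hK : inter S.kap Z < 0) :
    2 * chi (0 : Div S.W) - inter S.kap Z = 2 * chi Z ∧ chi Z ≤ h0 Z := by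
  have hA := S.all
  have h1 := hA.rr Z
  have h2 := hA.le Z
  rw [h0_bot (Rul.bot_of_neg hA hn (X := S.kap - Z) (by
    rw [← S.B_apply, map_sub, S.B_apply, S.B_apply, h0', inter_comm]
    omega))] at h2
  omega

theorem nonconst {Z : Div S.W} (h : 2 ≤ h0 Z) : ∃ f ∈ H0 Z, ∀ c : ℂ, f ≠ algebraMap ℂ K c := by
  by_contra o
  push Not at o
  have h1 : H0 Z ≤ Submodule.span ℂ {(1 : K)} := fun f hf => by
    obtain ⟨c, rfl⟩ := o f hf
    exact Submodule.mem_span_singleton.2 ⟨c, (Algebra.algebraMap_eq_smul_one c).symm⟩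
  have h2 := Submodule.finrank_mono h1
  rw [finrank_span_singleton one_ne_zero] at h2
  rw [h0] at h
  omega

theorem h0_F (P : Pen S) : h0 P.F ≤ 2 := by
  have h1 := P019P.l_sub_le (D := 0) (E := Finsupp.single (P019P.nonempty_Plk ℂ P.k).some 1)
    (Finsupp.single_nonneg.2 zero_le_one)
  rw [P019P.l_zero, P019P.dg_sgl, map_zero] at h1
  rw [Pen.F, Penn.fib_eq, (penb K S P).h0_pull]
  omega

end PenA

open PenA in
theorem pen : PEN := by
  intro K _ _ S hchi D Z hZ hn hZZ hL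
  have hA := S.all
  have hK : inter S.kap Z < 0 := by
    have := Finset.sum_nonneg fun C (_ : C ∈ D) => hn C
    rw [inter_lg] at hL
    omega
  obtain ⟨r1, r2⟩ := rr hn hZZ hK
  obtain ⟨f, hf, nc⟩ := nonconst (Z := Z) (by omega)
  have f0 : f ≠ 0 := by simpa using nc 0
  have key : ∀ C : Crv S.W, C.ord f ≠ 0 → inter Z C.cl = 0 := fun C hC => by
    by_cases o : Z C = 0
    · exact orth hn (eff_of_mem hA.toLoc2 hf f0)
        (by rw [inter_comm, inter_lin hA.toRR _ _ f0, hZZ])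
        (by rwa [Finsupp.add_apply, div_apply hA.toLoc2, o, zero_add])
    · exact orth hn hZ hZZ o
  have hH : inter S.H Z ≠ 0 := fun o => by
    rw [Hd.eq_zero_of_deg hA hZ o, Hd.inter_zero hA] at hK
    exact lt_irrefl _ hK
  have hH' : 0 < inter S.H Z := lt_of_le_of_ne (Rul.nef_eff hA (Hd.nef_H hA) hZ) hH.symm
  obtain ⟨P, hP⟩ := penof K S f nc (defd hZZ hH f0 key)
  have hB := penb K S P
  have hN := penn cs penb K S P
  obtain ⟨p, hp⟩ := P019P.exists_pole (k := ℂ) (z := (⟨f, hP⟩ : P.k))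
    fun c o => nc c (congrArg Subtype.val o)
  have hFZ : inter P.F Z = 0 := by
    rw [← hN.num_fib p, inter_comm]
    refine orth' fun C hC => key C ?_
    have h1 : P.Over C p := by
      by_contra o
      exact hC (hB.fib_zero C p o)
    exact (hB.ord_over C p h1 ⟨f, hP⟩).trans_ne (mul_ne_zero hC hp.ne)
  have hFL : inter (lg S D) P.F < 0 := by
    have h1 := Hd.hodge_prop hA hN.F_sq hFZ hZZ (lg S D)
    have h2 := mul_neg_of_pos_of_neg hN.F_pos hL
    rw [inter_comm (lg S D), h1] at h2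
    rw [inter_comm]
    exact lt_of_not_ge fun o => h2.not_ge (mul_nonneg hH'.le o)
  rw [inter_lg] at hFL
  have nn : ∀ C ∈ D, 0 ≤ inter P.F C.cl := fun C _ => hN.F_nef C
  have hs := Finset.sum_nonneg nn
  obtain ⟨r3, r4⟩ := rr hN.F_nef hN.F_sq (by omega)
  have r5 := h0_F P
  have hKF : inter S.kap P.F = -2 := by omega
  by_cases o : ∃ T ∈ D, P.Hor T
  · obtain ⟨T, hT, hT'⟩ := o
    have h1 := Finset.single_le_sum nn hT
    refine ⟨S, P, T, hKF, by omega, fun C hC hne => ⟨C, fun hD => ?_, rfl⟩⟩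
    have h2 := Finset.add_le_sum nn hD hT hne
    have h3 := hN.F_hor C hC
    have h4 := hN.F_hor T hT'
    omega
  · obtain ⟨T, hT⟩ := hB.ex_crv p
    refine ⟨S, P, T, hKF, ?_, fun C hC _ => ⟨C, fun hD => o ⟨C, hD, hC⟩, rfl⟩⟩
    rw [hN.F_vert T (hB.not_hor T p hT)]
    exact zero_le_one

end Vale.Agent.P297Z.Sf.Mp
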