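import Vale.Agent.P253Y.G.Defs2
import Vale.Agent.P253Y.G.Basic
import Vale.Agent.P253Y.G.Pen
import Vale.Agent.P253Y.G.Noh

/-! P253, surfaces: the orthogonal of the boundary. -/

set_option linter.all false

namespace Vale.Agent.P297Z.Sf.Mp

variable {K : Type} [Field K] [Algebra ℂ K] {S : Surf K}

namespace PerpA

theorem two (P : Pen S) {z : Fin 2 → K} (h : AlgebraicIndependent ℂ z) (h0 : z 0 ∈ P.k)
    (h1 : z 1 ∈ P.k) : False := by
  have h3 : AlgebraicIndependent ℂ ![(⟨_, h0⟩ : P.k), ⟨_, h1⟩] := by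
    refine AlgebraicIndependent.of_comp P.k.val ?_
    convert h using 1
    ext i
    fin_cases i <;> rfl
  have h4 := h3.cardinalMk_le_trdeg.trans Noh.trdeg_le
  simp at h4

theorem nc {z : Fin 2 → K} (h : AlgebraicIndependent ℂ z) (i : Fin 2) (c : ℂ) :
    z i ≠ algebraMap ℂ K c := fun o => h.transcendental i (o ▸ isAlgebraic_algebraMap c)

/-- Two independent functions without zeros and poles do not exist. -/
theorem nul {z : Fin 2 → K} (h : AlgebraicIndependent ℂ z)
    (h1 : ∀ i (C : Crv S.W), C.ord (z i) = 0) : False := by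
  have z0 : ∀ i, z i ≠ 0 := fun i => by simpa using nc h i 0
  obtain ⟨P, hP⟩ := penof K S (z 0) (nc h 0) fun x => Or.inl ((S.all.normal x _).1
    (Or.inr fun C _ => by rw [h1, Finsupp.zero_apply, add_zero]))
  exact two P h hP ((penb K S P).vert _ fun C _ => (Pl.ord_nonneg_iff _ (z0 1)).1 (h1 1 C).ge)

/-- Two independent functions whose divisors are orthogonal to a class of square zero do not
exist. -/
theorem sq {Z : Div S.W} (hZZ : inter Z Z = 0) (hH : inter S.H Z ≠ 0) {z : Fin 2 → K}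
    (h : AlgebraicIndependent ℂ z) (key : ∀ i (C : Crv S.W), C.ord (z i) ≠ 0 → inter Z C.cl = 0) :
    False := by
  have hA := S.all
  have z0 : ∀ i, z i ≠ 0 := fun i => by simpa using nc h i 0
  obtain ⟨P, hP⟩ := penof K S (z 0) (nc h 0) (PenA.defd hZZ hH (z0 0) (key 0))
  have hB := penb K S P
  have hN := penn cs penb K S P
  obtain ⟨p, hp⟩ := P019P.exists_pole (k := ℂ) (z := (⟨z 0, hP⟩ : P.k))
    fun c o => nc h 0 c (congrArg Subtype.val o)
  have hFZ : inter P.F Z = 0 := by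
    rw [← hN.num_fib p, inter_comm]
    refine PenA.orth' fun C hC => key 0 C ?_
    have h1 : P.Over C p := by
      by_contra o
      exact hC (hB.fib_zero C p o)
    exact (hB.ord_over C p h1 ⟨z 0, hP⟩).trans_ne (mul_ne_zero hC hp.ne)
  refine two P h hP (hB.vert _ fun C hC => (Pl.ord_nonneg_iff _ (z0 1)).1 (ge_of_eq ?_))
  by_contra o
  have h1 := Hd.hodge_prop hA hN.F_sq hFZ hZZ C.cl
  rw [key 1 C o, mul_zero] at h1
  exact mul_ne_zero hH (hN.F_hor C hC).ne' h1.symm

end PerpA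

open PerpA in
theorem perp : PERP := by
  intro K _ _ S D φ₀ φ h0 hreg hind hG A hAD
  have hA := S.all
  have z0 : ∀ i, φ i ≠ 0 := fun i o => nc hind i 0 (by simp [o])
  let Z : Div S.W := 0 ⊔ (-div S.W φ₀ ⊔ (-div S.W (φ 0) ⊔ -div S.W (φ 1)))
  have e : ∀ C, Z C = max 0 (max (-C.ord φ₀) (max (-C.ord (φ 0)) (-C.ord (φ 1)))) := fun C => by
    simp only [Z, Finsupp.sup_apply, Finsupp.neg_apply, Finsupp.zero_apply, div_apply hA.toLoc2]
  have hZ : 0 ≤ Z := le_sup_left
  have hD : On Z D := fun C hC => by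
    have a0 := Pl.ord_nonneg_of_mem _ (hreg C hC).1
    have a1 := Pl.ord_nonneg_of_mem _ ((hreg C hC).2 0)
    have a2 := Pl.ord_nonneg_of_mem _ ((hreg C hC).2 1)
    rw [e]
    unfold Crv.ord
    omega
  have ea : ∀ (g : K) C, (Z + div S.W g) C = Z C + C.ord g := fun g C => by
    rw [Finsupp.add_apply, div_apply hA.toLoc2]
  have p0 : 0 ≤ Z + div S.W φ₀ := fun C => by
    rw [Finsupp.zero_apply, ea, e]; omega
  have p1 : ∀ i, 0 ≤ Z + div S.W (φ i) := fun i C => by
    rw [Finsupp.zero_apply, ea, e]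
    fin_cases i <;> simp only [Fin.zero_eta, Fin.mk_one, Fin.isValue] <;> omega
  have hn : S.Nef Z := nef_of hZ fun C hC => by
    have b : Z C + C.ord φ₀ = 0 ∨ Z C + C.ord (φ 0) = 0 ∨ Z C + C.ord (φ 1) = 0 := by
      rw [e] at hC ⊢; omega
    rcases b with b | b | b
    · rw [← inter_lin hA.toRR _ _ h0]; exact i_eff p0 (by rw [ea, b])
    · rw [← inter_lin hA.toRR _ _ (z0 0)]; exact i_eff (p1 0) (by rw [ea, b])
    · rw [← inter_lin hA.toRR _ _ (z0 1)]; exact i_eff (p1 1) (by rw [ea, b])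
  rcases (Hd.nef_sq hA hn).eq_or_lt with hZZ | hZZ
  · exfalso
    have od : ∀ i (C : Crv S.W), C.ord (φ i / φ₀) =
        (Z + div S.W (φ i)) C - (Z + div S.W φ₀) C := fun i C => by
      rw [ea, ea, Crv.ord, Pl.ord_div _ (z0 i) h0]; ring
    by_cases hH : inter S.H Z = 0
    · have q : ∀ {g : K}, g ≠ 0 → 0 ≤ Z + div S.W g → Z + div S.W g = 0 := fun g0 hg =>
        Hd.eq_zero_of_deg hA hg (by rw [i_add', i_div' g0, hH, add_zero])
      exact nul (S := S) hind fun i C => by rw [od, q (z0 i) (p1 i), q h0 p0, sub_self]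
    · have q : ∀ {g : K}, g ≠ 0 → 0 ≤ Z + div S.W g → ∀ C, (Z + div S.W g) C ≠ 0 →
          inter Z C.cl = 0 := fun g0 hg C hC =>
        PenA.orth hn hg (by rw [i_add', i_div' g0, ← hZZ, add_zero]) hC
      refine sq hZZ.symm hH hind fun i C hC => ?_
      by_cases o : (Z + div S.W φ₀) C = 0
      · exact q (z0 i) (p1 i) C (by rwa [od, o, sub_zero] at hC)
      · exact q h0 p0 C o
  · have a1 : inter Z A = 0 := by
      rw [i_on hD]
      exact Finset.sum_eq_zero fun C hC => by rw [inter_comm, hAD C hC, mul_zero]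
    exact Hd.hodge_eq hA hZZ a1 (le_antisymm (Hd.hodge' hA hZZ a1) (hG A hAD))

end Vale.Agent.P297Z.Sf.Mp
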