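import Vale.Agent.P253Y.G.Basic

/-! P253, surfaces, block G: maximal twigs. -/

set_option linter.all false

namespace Vale.Agent.P297Z.Sf.Mp

open Classical

variable {K : Type} [Field K] [Algebra ℂ K] {S : Surf K} {D T : Finset (Crv S.W)}
  {τ C C' : Crv S.W} {A A' X : Div S.W}

namespace TwP

theorem ione (h : On A T) (hC : C ∈ T) (h0 : ∀ C' ∈ T, C' ≠ C → inter C'.cl X = 0) :
    inter A X = A C * inter C.cl X := by
  rw [i_on h, Finset.sum_eq_single_of_mem C hC fun C' h1 h2 => by rw [h0 C' h1 h2, mul_zero]]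

theorem lg_eq (hC : C ∈ D) (h : S.ag C.cl = -2) :
    inter (lg S D) C.cl = -2 + ∑ C' ∈ D.erase C, inter C'.cl C.cl := by
  rw [lg, i_add, i_rd, ← Finset.add_sum_erase D _ hC, ← h, Surf.ag]
  ring

theorem one_of_sum {U : Finset (Crv S.W)} (hC : C ∉ U) (h : ∑ C' ∈ U, inter C'.cl C.cl = 1) :
    ∃ b ∈ U, inter C.cl b.cl = 1 ∧ ∀ C' ∈ U, C' = b ∨ inter C.cl C'.cl = 0 := by
  have h0 : ∀ C' ∈ U, 0 ≤ inter C'.cl C.cl := fun C' h1 => i_cl fun e => hC (e ▸ h1)
  obtain ⟨b, hb, h1⟩ := Finset.exists_ne_zero_of_sum_ne_zero (h.trans_ne one_ne_zero)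
  rw [← Finset.add_sum_erase U _ hb] at h
  have h2 := Finset.sum_nonneg fun C' h1 => h0 C' (Finset.mem_of_mem_erase (a := b) h1)
  have h3 := h0 b hb
  refine ⟨b, hb, by rw [inter_comm]; omega, fun C' h4 => or_iff_not_imp_left.2 fun h5 => ?_⟩
  rw [inter_comm]
  exact (Finset.sum_eq_zero_iff_of_nonneg fun C' h1 => h0 C' (Finset.mem_of_mem_erase h1)).1
    (by omega) C' (Finset.mem_erase.2 ⟨h5, h4⟩)

/-- the first twig -/
noncomputable def first (hτ : τ ∈ D) (ha : inter τ.cl τ.cl ≤ -2) (hl : inter (lg S D) τ.cl = -1)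
    (b : Crv S.W) (h1 : b ∈ D.erase τ) (h2 : inter τ.cl b.cl = 1)
    (h3 : ∀ C ∈ D.erase τ, C = b ∨ inter τ.cl C.cl = 0) : Tw S D τ where
  T := {τ}
  r := τ
  b := b
  d := -inter τ.cl τ.cl
  q := 1
  Y := τ.cl
  Z := τ.cl
  W := 0
  sub := Finset.singleton_subset_iff.2 hτ
  τ_mem := Finset.mem_singleton_self _
  r_mem := Finset.mem_singleton_self _
  b_mem := Finset.mem_of_mem_erase h1
  b_not h := Finset.ne_of_mem_erase h1 (Finset.mem_singleton.1 h)
  l_tip := hl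
  l_zero C h e := absurd (Finset.mem_singleton.1 h) e
  rb := h2
  nb C h C' k1 k2 := by
    rw [Finset.mem_singleton] at h k2
    subst h
    exact (h3 C' (Finset.mem_erase.2 ⟨k2, k1⟩)).imp_left fun k => ⟨rfl, k⟩
  conn A k1 k2 k3 := absurd (k2.subset_singleton_iff.1 k1) k3
  q_pos := le_rfl
  q_lt := by omega
  q_one _ := rfl
  Y_on C h := Finsupp.single_eq_of_ne fun e => h (Finset.mem_singleton.2 e)
  Y_nonneg := cl_nonneg τ
  Y_r := Finsupp.single_eq_same
  Y_τ := Finsupp.single_eq_same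
  Y_int C h := by rw [Finset.mem_singleton.1 h, if_pos rfl, neg_neg]
  Z_on C h := Finsupp.single_eq_of_ne fun e => h (Finset.mem_singleton.2 e)
  Z_r := Finsupp.single_eq_same
  Z_int C h := by rw [Finset.mem_singleton.1 h, if_pos rfl, neg_neg]
  Z_lt C := by
    rw [Finsupp.single_apply]
    split_ifs <;> omega
  W_on _ _ := rfl
  W_r := rfl
  W_int C h := by
    rw [Finset.mem_singleton.1 h, if_pos rfl, if_pos rfl, i_zero]
    rfl
  W_nonneg := le_rfl
  W_le := cl_nonneg τ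
  gap C := by
    rw [Finsupp.single_apply, Finsupp.zero_apply]
    split_ifs <;> omega

variable (t : Tw S D τ)

theorem ne_b (h : C ∈ t.T) : C ≠ t.b := fun e => t.b_not (e ▸ h)

theorem b_int (h : C ∈ t.T) : inter t.b.cl C.cl = if C = t.r then 1 else 0 := by
  rw [inter_comm]
  split_ifs with e
  · exact e ▸ t.rb
  · exact (t.nb C h _ t.b_mem t.b_not).resolve_left fun k => e k.1

theorem on_b (h : On A t.T) : inter A t.b.cl = A t.r := by
  rw [ione h t.r_mem fun C h1 h2 => by rw [inter_comm, b_int t h1, if_neg h2], t.rb, mul_one]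

theorem on_out (h : On A t.T) (h1 : C ∈ D) (h2 : C ∉ insert t.b t.T) : inter A C.cl = 0 := by
  rw [Finset.mem_insert, not_or] at h2
  rw [i_on h]
  exact Finset.sum_eq_zero fun C' h3 => by
    rw [(t.nb C' h3 C h1 h2.2).resolve_left fun k => h2.1 k.2, mul_zero]

theorem l_b (h : S.ag t.b.cl = -2) : inter (lg S D) t.b.cl =
    -1 + ∑ C ∈ D \ insert t.b t.T, inter C.cl t.b.cl := by
  have e : D.erase t.b = t.T ∪ D \ insert t.b t.T := by
    ext C
    have := @t.sub C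
    have := @ne_b _ _ _ _ _ _ C t
    simp only [Finset.mem_erase, Finset.mem_union, Finset.mem_sdiff, Finset.mem_insert]
    tauto
  rw [lg_eq t.b_mem h, e, Finset.sum_union (Finset.disjoint_left.2 fun C h1 h2 =>
    (Finset.mem_sdiff.1 h2).2 (Finset.mem_insert_of_mem h1)),
    Finset.sum_eq_single_of_mem _ t.r_mem fun C h1 h2 => by rw [inter_comm, b_int t h1, if_neg h2],
    t.rb]
  ring

/-- the dual of the next curve -/
noncomputable def Y' : Div S.W := t.d • t.b.cl + t.Y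

/-- the dual of the tip in the larger twig -/
noncomputable def Z' : Div S.W := t.b.cl - inter t.b.cl t.b.cl • t.Z - t.W

theorem d_pos : 2 ≤ t.d := by
  have := t.q_pos
  have := t.q_lt
  omega

theorem Y'_nonneg : 0 ≤ Y' t :=
  add_nonneg (smul_nonneg (by have := d_pos t; omega) (cl_nonneg _)) t.Y_nonneg

theorem Y'_ne (h : C ≠ t.b) : Y' t C = t.Y C := by simp [Y', Finsupp.single_apply, h.symm]

theorem Y'_b : Y' t t.b = t.d := by simp [Y', t.Y_on _ t.b_not]

theorem Y'_on : On (Y' t) (insert t.b t.T) := fun C h => by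
  rw [Finset.mem_insert, not_or] at h
  rw [Y'_ne t h.1, t.Y_on C h.2]

theorem Y'_T (h : C ∈ t.T) : inter (Y' t) C.cl = 0 := by
  rw [Y', i_add, i_smul, b_int t h, t.Y_int C h]
  split_ifs <;> ring

theorem Y'_ib : inter (Y' t) t.b.cl = inter t.b.cl t.b.cl * t.d + t.q := by
  rw [Y', i_add, i_smul, on_b t t.Y_on, t.Y_r, mul_comm]

theorem Y'_l : inter (lg S D) (Y' t) = t.d * inter (lg S D) t.b.cl - 1 := by
  rw [inter_comm, Y', i_add, i_smul, ione t.Y_on t.τ_mem fun C h1 h2 => by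
    rw [inter_comm, t.l_zero C h1 h2], t.Y_τ, inter_comm τ.cl, t.l_tip, inter_comm t.b.cl]
  ring

theorem Y'_sq : inter (Y' t) (Y' t) = Y' t t.b * inter (Y' t) t.b.cl := by
  rw [ione (Y'_on t) (Finset.mem_insert_self _ _) fun C h1 h2 => by
    rw [inter_comm, Y'_T t ((Finset.mem_insert.1 h1).resolve_left h2)], inter_comm t.b.cl]

theorem Y'_nef (h : 0 ≤ inter t.b.cl t.b.cl) : S.Nef (Y' t) := fun C => by
  by_cases h1 : C ∈ insert t.b t.T
  · rcases Finset.mem_insert.1 h1 with rfl | h1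
    · rw [Y'_ib]
      nlinarith [t.q_pos, d_pos t]
    · exact (Y'_T t h1).ge
  · exact i_eff (Y'_nonneg t) (Y'_on t C h1)

theorem Z'_ne (h : C ≠ t.b) : Z' t C = -inter t.b.cl t.b.cl * t.Z C - t.W C := by
  simp [Z', Finsupp.single_apply, h.symm]

theorem Z'_b : Z' t t.b = 1 := by simp [Z', t.Z_on _ t.b_not, t.W_on _ t.b_not]

theorem Z'_int (h : C ∈ insert t.b t.T) :
    inter (Z' t) C.cl = if C = τ then -(-inter t.b.cl t.b.cl * t.d - t.q) else 0 := by
  rw [Z', i_sub, i_sub, i_smul]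
  rcases Finset.mem_insert.1 h with rfl | h
  · rw [on_b t t.Z_on, on_b t t.W_on, t.Z_r, t.W_r, if_neg (ne_b t t.τ_mem).symm]
    ring
  · rw [b_int t h, t.Z_int C h, t.W_int C h]
    split_ifs <;> ring

theorem Z_le (h : inter t.b.cl t.b.cl ≤ -2) : t.Z ≤ Z' t := fun C => by
  have h1 : 0 ≤ t.W C := t.W_nonneg C
  have h2 : t.W C ≤ t.Z C := t.W_le C
  by_cases e : C = t.b
  · rw [e, Z'_b, t.Z_on _ t.b_not]
    exact zero_le_one
  · rw [Z'_ne t e]
    nlinarith

theorem conn' : Conn (insert t.b t.T) := fun A h1 h2 h3 => by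
  have hr := Finset.mem_insert_of_mem (b := t.b) t.r_mem
  have h4 : A.erase t.b ⊆ t.T := fun C h =>
    (Finset.mem_insert.1 (h1 (Finset.mem_of_mem_erase h))).resolve_left (Finset.ne_of_mem_erase h)
  have key : (A.erase t.b).Nonempty → A.erase t.b ≠ t.T →
      ∃ C ∈ A, ∃ C' ∈ insert t.b t.T, C' ∉ A ∧ 0 < inter C.cl C'.cl := fun k1 k2 => by
    obtain ⟨C, k3, C', k4, k5, k6⟩ := t.conn _ h4 k1 k2
    exact ⟨C, Finset.mem_of_mem_erase k3, C', Finset.mem_insert_of_mem k4,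
      fun k => k5 (Finset.mem_erase.2 ⟨ne_b t k4, k⟩), k6⟩
  by_cases hb : t.b ∈ A <;> by_cases hA : t.r ∈ A
  · exact key ⟨_, Finset.mem_erase.2 ⟨ne_b t t.r_mem, hA⟩⟩ fun e =>
      h3 (by rw [← e, Finset.insert_erase hb])
  · exact ⟨_, hb, _, hr, hA, by rw [inter_comm, t.rb]; exact one_pos⟩
  · exact ⟨_, hA, _, Finset.mem_insert_self _ _, hb, by rw [t.rb]; exact one_pos⟩
  · exact key (by rwa [Finset.erase_eq_of_notMem hb]) fun e =>
      hA (Finset.mem_of_mem_erase (e ▸ t.r_mem))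

/-- the larger twig -/
noncomputable def next (ha : inter t.b.cl t.b.cl ≤ -2) (hl : inter (lg S D) t.b.cl = 0) (b : Crv S.W)
    (h1 : b ∈ D \ insert t.b t.T) (h2 : inter t.b.cl b.cl = 1)
    (h3 : ∀ C ∈ D \ insert t.b t.T, C = b ∨ inter t.b.cl C.cl = 0) : Tw S D τ where
  T := insert t.b t.T
  r := t.b
  b := b
  d := -inter t.b.cl t.b.cl * t.d - t.q
  q := t.d
  Y := Y' t
  Z := Z' t
  W := t.Z
  sub := Finset.insert_subset t.b_mem t.sub
  τ_mem := Finset.mem_insert_of_mem t.τ_mem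
  r_mem := Finset.mem_insert_self _ _
  b_mem := (Finset.mem_sdiff.1 h1).1
  b_not := (Finset.mem_sdiff.1 h1).2
  l_tip := t.l_tip
  l_zero C h e := (Finset.mem_insert.1 h).elim (fun k => k ▸ hl) fun k => t.l_zero C k e
  rb := h2
  nb C h C' k1 k2 := by
    rcases Finset.mem_insert.1 h with rfl | h
    · exact (h3 C' (Finset.mem_sdiff.2 ⟨k1, k2⟩)).imp_left fun k => ⟨rfl, k⟩
    · rw [Finset.mem_insert, not_or] at k2
      exact Or.inr ((t.nb C h C' k1 k2.2).resolve_left fun k => k2.1 k.2)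
  conn := conn' t
  q_pos := by have := d_pos t; omega
  q_lt := by nlinarith [t.q_lt, d_pos t]
  q_one h := by have := d_pos t; omega
  Y_on := Y'_on t
  Y_nonneg := Y'_nonneg t
  Y_r := Y'_b t
  Y_τ := (Y'_ne t (ne_b t t.τ_mem)).trans t.Y_τ
  Y_int C h := by
    rcases Finset.mem_insert.1 h with rfl | h
    · rw [if_pos rfl, Y'_ib]
      ring
    · rw [if_neg (ne_b t h), Y'_T t h]
  Z_on C h := by
    rw [Finset.mem_insert, not_or] at h
    rw [Z'_ne t h.1, t.Z_on C h.2, t.W_on C h.2, mul_zero, sub_zero]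
  Z_r := Z'_b t
  Z_int C h := Z'_int t h
  Z_lt C := by
    by_cases e : C = t.b
    · rw [e, Z'_b]
      nlinarith [t.q_lt, d_pos t]
    · rw [Z'_ne t e]
      nlinarith [t.gap C, t.Z_lt C]
  W_on C h := t.Z_on C fun k => h (Finset.mem_insert_of_mem k)
  W_r := t.Z_on _ t.b_not
  W_int C h := by
    rcases Finset.mem_insert.1 h with rfl | h
    · rw [on_b t t.Z_on, t.Z_r, if_neg (ne_b t t.τ_mem).symm, if_pos rfl, zero_add]
    · rw [t.Z_int C h, if_neg (ne_b t h), add_zero]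
  W_nonneg := t.W_nonneg.trans t.W_le
  W_le := Z_le t ha
  gap C := by
    by_cases e : C = t.b
    · rw [e, Z'_b, t.Z_on _ t.b_not]
      nlinarith [t.q_lt, d_pos t]
    · rw [Z'_ne t e]
      nlinarith [t.gap C, t.Z_lt C]

/-- a chain with negative curves only does not occur -/
theorem no_chain (h : Mnl S D) (ha : inter t.b.cl t.b.cl ≤ -2) (h7 : inter (lg S D) t.b.cl = -1)
    (h2 : ∀ C ∈ D \ insert t.b t.T, inter C.cl t.b.cl = 0) : False := by
  have h8 : insert t.b t.T = D := by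
    by_contra k
    obtain ⟨C, k1, C', k2, k3, k4⟩ := h.conn _ (Finset.insert_subset t.b_mem t.sub)
      (Finset.insert_nonempty _ _) k
    rcases Finset.mem_insert.1 k1 with rfl | k1
    · exact k4.ne' ((inter_comm _ _).trans (h2 C' (Finset.mem_sdiff.2 ⟨k2, k3⟩)))
    · rw [Finset.mem_insert, not_or] at k3
      exact k4.ne' ((t.nb C k1 C' k2 k3.2).resolve_left fun k => k3.1 k.2)
  refine h.toCls.ne (m := -inter t.b.cl t.b.cl * t.d - t.q) (G := Z' t + Y' t)
    (by nlinarith [t.q_lt, d_pos t])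
    (add_nonneg ((t.W_nonneg.trans t.W_le).trans (Z_le t ha)) (Y'_nonneg t))
    (Nz.nef (h.perp _ fun C k => ?_))
  rw [← h8] at k
  rw [i_sub, i_add (Z' t), i_smul, Z'_int t k]
  rcases Finset.mem_insert.1 k with rfl | k
  · rw [h7, Y'_ib, if_neg (ne_b t t.τ_mem).symm]
    ring
  · rw [Y'_T t k]
    split_ifs with e
    · rw [e, t.l_tip]
      ring
    · rw [t.l_zero C k e]
      ring

omit t in
theorem step (hE : EUC) (h : Mnl S D) (n : ℕ) : ∀ t : Tw S D τ, (D \ t.T).card < n →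
    Cyl K (out S D) ∨ ∃ t : Tw S D τ, 1 ≤ inter (lg S D) t.b.cl := by
  induction n with
  | zero => exact fun _ k => absurd k (Nat.not_lt_zero _)
  | succ n ih =>
  intro t hn
  have h0 := h.toCls.ag t.b_mem
  have h1 := l_b t h0
  have hb : t.b ∉ D \ insert t.b t.T := fun k =>
    (Finset.mem_sdiff.1 k).2 (Finset.mem_insert_self _ _)
  have h2 : ∀ C ∈ D \ insert t.b t.T, 0 ≤ inter C.cl t.b.cl := fun C k => i_cl fun e => hb (e ▸ k)
  have h3 := Finset.sum_nonneg h2
  have hd := d_pos t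
  by_cases h4 : 1 ≤ inter (lg S D) t.b.cl
  · exact Or.inr ⟨t, h4⟩
  have h5 := h.sq t.b_mem (by omega)
  have eu := fun k => hE K S h.chi D _ _ t.b_mem h0.le (Y'_nonneg t) (Y'_nef t k)
    (by rw [Y'_b]; omega) (Y'_sq t)
  by_cases h6 : inter (lg S D) t.b.cl = 0
  · obtain ⟨b, k1, k2, k3⟩ := one_of_sum hb (by omega)
    obtain ⟨k4, k5⟩ := Finset.mem_sdiff.1 k1
    by_cases ha : inter t.b.cl t.b.cl ≤ -2
    · refine ih (next t ha h6 b k1 k2 k3) (lt_of_lt_of_le (Finset.card_lt_card ?_)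
        (Nat.le_of_lt_succ hn))
      exact ⟨Finset.sdiff_subset_sdiff subset_rfl (Finset.subset_insert _ _), fun k =>
        hb (k (Finset.mem_sdiff.2 ⟨t.b_mem, t.b_not⟩))⟩
    · refine Or.inl (eu (by omega) (Or.inl ⟨b, k4, k2, Y'_on t b k5, ?_, ?_⟩))
      · rw [Y'_b, Y', i_add, i_smul, k2, on_out t t.Y_on k4 k5]
        ring
      · rw [Y'_l, h6]
        omega
  · have h7 : inter (lg S D) t.b.cl = -1 := by omega
    by_cases ha : inter t.b.cl t.b.cl ≤ -2
    · exact (no_chain t h ha h7 ((Finset.sum_eq_zero_iff_of_nonneg h2).1 (by omega))).elim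
    · refine Or.inl (eu (by omega) (Or.inr ?_))
      rw [Y'_l, Y'_b, h7]
      omega

end TwP

open TwP in
/-- Maximal twigs exist. -/
theorem twig (hE : EUC) : TWIG := fun K _ _ S D h τ hτ hl => by
  have h0 := h.toCls.ag hτ
  have h1 := lg_eq hτ h0
  obtain ⟨b, k1, k2, k3⟩ := one_of_sum (Finset.notMem_erase τ D) (by omega)
  have h2 := h.sq hτ (by omega)
  by_cases ha : inter τ.cl τ.cl ≤ -2
  · exact step hE h _ (first hτ ha hl b k1 k2 k3) (Nat.lt_succ_self _)
  · refine Or.inl (hE K S h.chi D τ.cl τ hτ h0.le (cl_nonneg τ) (nef_of (cl_nonneg τ) fun C e => ?_)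
      (by simp) (by simp) (Or.inl ⟨b, Finset.mem_of_mem_erase k1, k2,
        cl_ne (Finset.ne_of_mem_erase k1), by rw [k2, cl_self], by omega⟩))
    obtain rfl : C = τ := by_contra fun k => e (cl_ne k)
    omega

end Vale.Agent.P297Z.Sf.Mp
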